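import Crest.Agent.X212.End23.Defs

/-!
# Row 212, lane END-S (helper23): leaves on critical points
-/

set_option autoImplicit false
set_option linter.unusedSectionVars false
noncomputable section
open scoped Manifold ContDiff Topology InnerProductSpace
open MeasureTheory Set Function Filter

namespace Crest.Agent.X212.End23
open An Cyf70 Sw Sw.En3
open Crt72 (Op SF symA)

variable (κ lam ν : Type) [Fintype κ] [Fintype lam] [Fintype ν] [DecidableEq ν]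

/-- ES-SF: the base operator is symmetric and of Dirac type -/
def SfStmt : Prop := ∀ e : En3 κ lam ν, e.OK → (∃ σ B C,
  (⟨pV e, pV e, σ, B⟩ : An.Op e.Y.M κ (VV κ ν) (VV κ ν)).Good e.D.F C ∧
  (⟨pV e, pV e, σ, B⟩ : An.Op e.Y.M κ (VV κ ν) (VV κ ν)).CliffL e.D.F ∧ Ms1.Sy e.D.F (pV e) B σ ∧
    ∀ u : Sec e.Y.I (pV e), e.D.F.op σ B u.1 = hs0 e u.1) ∧ SF (iH e) (L0 e) (symA _) (sfE e)

/-- ES-AH: the zero order part -/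
def AhStmt : Prop := ∀ e : En3 κ lam ν, e.OK → 0 < e.w → ∀ v : e.YC, e.cyl.Adm (fz v) →
  (∀ u ∈ Sec e.Y.I (pV e), ∀ y, hs v u y - hs0 e u y = av v u y) ∧
  e.D.F.Rep (aH v) (av v) ∧ aH v ∈ symA _ ∧
  (∀ k, e.D.F.Rep (e.D.F.lift k k (pV e) (pV e) (av v)) (av v)) ∧
  ∀ ε > 0, ∃ η > 0, ∀ v' : e.YC, e.cyl.Adm (fz v') → dist 2 v' v ≤ η → ‖aH v' - aH v‖ ≤ ε

/-- ES-BIJ: nondegeneracy -/
structure BijStmt : Prop where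
  irr : ∀ e : En3 κ lam ν, e.OK → 0 < e.w → ∀ v : e.YC, Crit v → (∃ y, v.Φ y ≠ 0) →
    (Nd v ↔ Bijective (TT v))
  red : ∀ e : En3 κ lam ν, e.OK → 0 < e.w → ∀ θ : e.YC, Red θ → (Nd θ ↔ NdF θ ∧ e.b 0 ∉ spec θ)
  eqv : ∀ e : En3 κ lam ν, e.OK → ∀ v v' : e.YC, Crit v → Eqv v v' → (Nd v → Nd v') ∧
    spec v' = spec v ∧ ∀ l, Smp v l → Smp v' l

/-- ES-DAT: the linear data at a reducible point, on every level -/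
def DatStmt : Prop := ∀ e : En3 κ lam ν, (lf e).OK → ∀ θ : (lf e).YC, Red θ → NdF θ →
  e.D.F.lift 1 0 (pV e) (pV e) (hs (e := lf e) θ) = Op (iH e) (L0 e) (aL θ) ∧ ∀ k,
  Rad96.Dat (e.D.F.incl (k + 1) k (pV e))
    (e.D.F.lift (k + 1) k (pV e) (pV e) (hs (e := lf e) θ)) (e.D.F.incl k 0 (pV e))
    (e.D.F.mulH (k + 1) _ _ (pS e)) (e.D.F.mulH (k + 1) _ _ (jS e))
    (e.D.F.mulH k _ _ (pS e)) (e.D.F.mulH k _ _ (jS e)) (tH e (k + 1) (cst e)) ∧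
  ∀ l x, x ∈ Rad96.Eig (e.D.F.incl (k + 1) k (pV e))
    (e.D.F.lift (k + 1) k (pV e) (pV e) (hs (e := lf e) θ)) (e.D.F.mulH (k + 1) _ _ (pS e)) l ↔
      ∃ φ, Eg θ l φ ∧ x = tH e (k + 1) fun y => Map77.i2 _ _ (φ y)

/-- ES-MU: invariance of the degree -/
structure MuStmt : Prop where
  eq0 : ∀ e : En3 κ lam ν, e.OK → 0 < e.w → Bijective (Op (iH e) (L0 e) (rf (th e))) →
    ∀ v v' : e.YC, e.cyl.Adm (fz v) → Bijective (TT v) → Eq0 v v' → mu v' = mu v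
  rf : ∀ (e : En3 κ lam ν) (M : (lf e).Gen), Mo M → Bijective (Op (iH e) (L0 e) (rf (th e))) ∧
    (∀ j, Bijective (Op (iH e) (L0 e) (rf (M.θ j)))) ∧ (e.H1 → e.f = 0 → ∀ j, mu0 (M.θ j) = 0)
  nat : ∀ e : En3 κ lam ν, e.OK → 0 < e.w → Bijective (Op (iH e) (L0 e) (End23.rf (th e))) →
    ∀ u, Gau e.Y.I u → ∀ v : e.YC, e.cyl.Adm (fz v) → Bijective (TT v) →
      Bijective (TT (ac u v)) ∧ mu (ac u v) = mu v + mu0 (ac (e := lf e) u (th e))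

/-- ES-GAP: the spectrum of the Dirac operator -/
def GapStmt : Prop := ∀ e : En3 κ lam ν, e.OK → ∀ θ : e.YC, e.cyl.Adm (fz θ) →
  (∀ r, (spec θ ∩ Icc (-r) r).Finite) ∧ (spec θ ∩ Ioi 0).Infinite ∧
  ∀ (β δ : ℝ) φ, e.cyl.Adm (fz (⟨θ.a, φ⟩ : e.YC)) → 0 ≤ δ → (∀ l ∈ spec θ, δ ≤ |β - l|) →
    δ ^ 2 * nm (⟨θ.a, φ⟩ : e.YC) ≤ fq β (⟨θ.a, φ⟩ : e.YC)

/-- ES-FLAT: the reducible point of a rational homology sphere -/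
def FlatStmt : Prop := ∀ e : En3 κ lam ν, e.OK → e.H1 → e.om = 0 → e.f = 0 → e.Inv ∧
  (∃ θ : e.YC, Red θ) ∧ (∀ θ θ' : e.YC, Red θ → Red θ' → Eq0 θ θ') ∧ ∀ θ : e.YC, Red θ → NdF θ

variable {κ lam ν} in
/-- a Banach space of masses -/
structure Flr (e : En3 κ lam ν) : Type 1 where
  Λ : Type
  [n : NormedAddCommGroup Λ]
  [s : NormedSpace ℝ Λ]
  [c : CompleteSpace Λ]
  [sc : SecondCountableTopology Λ]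
  hm : Λ →ₗ[ℝ] e.Y.M → En ν
  herm : ∀ x, Herm e (hm x)
  cb : ∀ k, ∃ C, ∀ x, e.D.F.CB k (hm x) (C * ‖x‖)
  den : ∀ h, Herm e h → ∀ ε > 0, ∃ x, ∀ y, ‖hm x y - h y‖ ≤ ε
  one : ∃ x, ∀ y, hm x y = e.cyl.pp (y, 0)

attribute [instance] Flr.n Flr.s Flr.c Flr.sc

/-- ES-FLO -/
def FloStmt : Prop := ∀ e : En3 κ lam ν, e.OK → Nonempty (Flr e) ∧
  ∀ h, Herm e h → (wh e e.f h).OK ∧ (wh e e.f (e.h + h)).OK

/-- ES-SIMP: generic spectrum at a reducible point -/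
def SimpStmt : Prop := ∀ e : En3 κ lam ν, (lf e).OK → ∀ (Λ : Flr e) (θ : (lf e).YC), Red θ → NdF θ →
  ∀ᶠ x in residual Λ.Λ, 0 ∉ spec (⟨θ.a, 0⟩ : (lf (wh e e.f (e.h + Λ.hm x))).YC) ∧
    ∀ l ≥ 0, Smp (⟨θ.a, 0⟩ : (lf (wh e e.f (e.h + Λ.hm x))).YC) l

/-- ES-SMALE: generic nondegeneracy of the irreducible points -/
def SmaleStmt : Prop := ∀ e : En3 κ lam ν, (lf e).OK → e.H1 → e.om = 0 → e.f = 0 → ∀ Λ : Flr e,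
  ∀ᶠ x in residual Λ.Λ, ∀ v : (lf (wh e e.f (e.h + Λ.hm x))).YC, Crit v → (∃ y, v.Φ y ≠ 0) → Nd v

/-- ES-ISO: nondegenerate irreducible points are isolated -/
def IsoStmt : Prop := ∀ e : En3 κ lam ν, e.OK → 0 < e.w → e.b = 0 → e.f = 0 → ∀ v : e.YC, Crit v →
  (∃ y, v.Φ y ≠ 0) → Nd v → ∃ k, ∃ ε > 0, ∀ v' : e.YC, Crit v' → dist k v' v ≤ ε → Eqv v v'

/-- ES-PSC: positive scalar curvature -/
def PscStmt : Prop := ∀ e : En3 κ lam ν, e.OK → Psc e → e.om = 0 → ∃ ε > 0, ∀ f h,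
  (wh e f h).OK → (∀ y, ‖h y‖ ≤ ε) → (∀ r, |deriv f r| ≤ ε) → NoOld (wh e f h) ∧
    ∀ θ : (wh e f h).YC, (wh e f h).cyl.Adm (fz θ) → (∀ y, (wh e f h).cyl.fc (fz θ) (y, 0) = 0) →
      0 ∉ spec θ

/-- ES-GENQ: existence of the mark `Qhs` -/
def GenQStmt : Prop := ∀ e : En3 κ lam ν, e.OK → e.H1 → e.om = 0 → e.f = 0 → ∀ k, ∀ ε > 0,
  ∃ h, (wh e 0 h).OK ∧ e.D.F.CB k (h - e.h) ε ∧ Qhs (wh e 0 h)

/-- ES-GENT: existence of the mark `Tor` -/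
def GenTStmt : Prop := ∀ (e : En3 κ lam ν) u, e.OK → Lg e u → per e u ≠ 0 → Psc e → e.om = 0 →
  e.f = 0 → (∃ θ : e.YC, Red θ) → ∀ k, ∀ ε > 0, ∃ f h, (wh e f h).OK ∧ e.D.F.CB k h ε ∧
    (∀ j ≤ k, ∀ r, |iteratedDeriv j f r| ≤ ε) ∧ Tor (wh e f h) u

/-- ES-CPT: critical points of small norm -/
structure CptStmt : Prop where
  mo : ∀ (e : En3 κ lam ν) (M : (lf e).Gen), Mo M → ∀ c ≥ 0, ∀ k, ∀ ε > 0, ∃ w₀ > 0,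
    ∀ w ∈ Ioc 0 w₀, ∀ S ψ, (lv e c w S ψ).OK → ∀ v : (lv e c w S ψ).YC, Crit v → nm v ≤ 1 →
      ∃ j v', Eqv v v' ∧ (∀ y, dvg e (v'.a - (M.θ j).a) y = 0) ∧
        ∀ i, e.D.F.nrm k (v'.a i - (M.θ j).a i) ≤ ε
  dead : ∀ e : En3 κ lam ν, Dead e → ∀ c ≥ 0, ∃ w₀ > 0, ∀ w ∈ Ioc 0 w₀, ∀ S ψ,
    (lv e c w S ψ).OK → ∀ v : (lv e c w S ψ).YC, ¬Crit v

/-- ES-TOW: the tower over a reducible point -/
def TowStmt : Prop := ∀ (e : En3 κ lam ν) (M : (lf e).Gen), Mo M → ∀ j, ∀ c > 0,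
  c ∉ spec (M.θ j) → ∀ k, ∀ η > 0, ∃ k', ∃ ε > 0, ∃ w₀ > 0, ∀ w ∈ Ioc 0 w₀,
    ∃ x : ℝ → (lv e c w ∅ 0).YC, (∀ l ∈ spec (M.θ j) ∩ Ioo 0 c, Crit (x l) ∧ Bijective (TT (x l)) ∧
      mu (x l) = Lb.deg (.inr (j, l) : Lb M) ∧ ∃ φ, Eg (M.θ j) l φ ∧
        c * prf (nm (⟨(M.θ j).a, φ⟩ : (lf e).YC)) = l ∧ dist k (x l) ⟨(M.θ j).a, φ⟩ ≤ η) ∧
    ∀ v : (lv e c w ∅ 0).YC, Crit v → (∃ y, v.Φ y ≠ 0) → (∀ y, dvg e (v.a - (M.θ j).a) y = 0) →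
      (∀ i, e.D.F.nrm k' (v.a i - (M.θ j).a i) ≤ ε) →
        ∃ l ∈ spec (M.θ j) ∩ Ioo 0 c, Eqv (x l) v

/-- ES-LVL: levels of the transversality terms; the profile -/
def LvlStmt : Prop := (∀ A : Set ℝ, A.Finite → ∃ (S : Set ℝ) (ψ : ℝ → ℝ), IsCompact S ∧
  ContDiff ℝ ∞ ψ ∧ Monotone ψ ∧ ∀ a ∈ A, a ∉ S ∧ (∀ᶠ r in 𝓝 a, ψ r = ψ a) ∧
    ∀ b ∈ A, a < b → ψ a < ψ b ∧ ∃ r ∈ interior S, a < r ∧ r < b) ∧
  ContDiff ℝ ∞ prf ∧ (∀ c > 0, Rad96.Prof (fun r => c * prf r) c) ∧ (∀ r, prf r ∈ Icc 0 3) ∧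
    Antitone prf ∧ 1 / 3 ≤ prf (1 / 2)

/-- ES-RS: literal representatives -/
def RsStmt : Prop := ∀ (e : En3 κ lam ν) (g : e.Gen) u, g.OK → Lg e u → (u = 1 ∨ per e u ≠ 0) →
  Rs {v | ∃ (n : ℤ) (i : g.ι), v = ac (fun y => u y ^ n) (g.x i)}

/-- ES-NB: levels are good, numerical bounds -/
def NbStmt : Prop := ∀ e : En3 κ lam ν, e.OK → e.om = 0 → (lf e).OK ∧ ∃ C, ∀ c ≥ 0, ∀ w S ψ,
  0 < w → IsCompact S → ContDiff ℝ ∞ ψ → Monotone ψ → (lv e c w S ψ).OK ∧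
    ((lf e).Inv → (lv e c w S ψ).Inv) ∧ (w ≤ 1 → 9 * w * c ^ 2 ≤ 1 → (lv e c w S ψ).Nb C) ∧
    ∀ v : (lv e c w S ψ).YC, (lv e c w S ψ).cyl.Adm (fz v) → |L v - L (tv v)| ≤ 3 * w * c ∧
      (1 ≤ nm v → (Crit v ↔ Crit (tv v)) ∧ gn v = gn (tv v)) ∧
      (1 < nm v → (Nd (tv v) → Nd v) ∧ aH v = aL (tv v))

/-- ES-NUM: degrees of labels -/
structure NumStmt : Prop where
  lo : ∀ (e : En3 κ lam ν) (M : (lf e).Gen) (o : Lb M), lo M ≤ o.deg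
  bd : ∀ (e : En3 κ lam ν) (M : (lf e).Gen), Mo M → ∀ c d, {o : Lb M | o.In c ∧ o.deg = d}.Finite ∧
    {o : Lb M | o.In c ∧ o.deg = d}.ncard ≤ Fintype.card M.ι + Fintype.card M.ρ
  win : ∀ (e : En3 κ lam ν) (M : (lf e).Gen), Mo M →
    (∀ d, ∃ Λ, ∀ c j l, Lb.In c (.inr (j, l) : Lb M) → Lb.deg (.inr (j, l) : Lb M) ≤ d → l ≤ Λ) ∧
    ∀ Λ, ∃ d, ∀ c (o : Lb M), o.In c → (∀ j l, o = .inr (j, l) → l ≤ Λ) → o.deg ≤ d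
  tow : ∀ (e : En3 κ lam ν) (M : (lf e).Gen), Mo M → e.H1 → e.f = 0 → Subsingleton M.ρ →
    (∀ k ≥ hi M, Even k → ∃ c₀, ∀ c ≥ c₀, ∃! o : Lb M, o.In c ∧ o.deg = End23.lo M + k) ∧
    (∀ k ≥ hi M, Odd k → ∀ c (o : Lb M), o.In c → o.deg ≠ End23.lo M + k) ∧
    (NoOld e → End23.lo M = 0 ∧ hi M = 0)
  thin : ∀ (e : En3 κ lam ν) (M : (lf e).Gen), Mo M → NoOld e →
    (∀ j j', j ≠ j' → Odd (mu0 (M.θ j) - mu0 (M.θ j'))) →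
      ∀ c (o o' : Lb M), o.In c → o'.In c → o.deg = o'.deg → o = o'

/-- **ES-CRIT**: the generators of a level -/
def CritStmt : Prop := ∀ (e : En3 κ lam ν) (M : (lf e).Gen), Mo M → ∀ c > 0,
  (∀ j, c ∉ spec (M.θ j)) → ∀ k, ∀ η > 0, ∃ w₀ > 0, ∀ w ∈ Ioc 0 w₀,
    ∃ S ψ, ∃ (g : (lv e c w S ψ).Gen) (lab : g.ι → Lb M), Pk M g lab k η

end Crest.Agent.X212.End23
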