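import Crest.Agent.X212.Sw.Lv
import Crest.Agent.X212.Sw88.Wz
import Crest.Agent.X212.Ms1.Sf
import Crest.Agent.X212.Rad96.Defs
import Crest.Agent.X212.Map77.Sum

/-!
# Row 212, lane END-S (helper23): ends, Hessians, degrees, marks

`lf e` : the level-free cross-section; `lv e c w S ψ` : a level; `tv` : true variables;
`hs v` : the extended Hessian; `mu v` : the degree; `Mo M` : Morse ends; `Pk` : the generators of a
level.
-/

set_option autoImplicit false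
set_option linter.unusedSectionVars false
noncomputable section
open scoped Manifold ContDiff Topology InnerProductSpace BoundedContinuousFunction
open MeasureTheory Set Function Filter

namespace Crest.Agent.X212.End23
open An Cyf70 Sw Sw.En3
open Map77 (P2 f2 s2 i1 i2 sm2)
open Crt72 (Op)

variable {κ lam ν : Type} [Fintype κ] [Fintype lam] [Fintype ν] [DecidableEq ν]

/-- the profile of the radial mass -/
def prf (r : ℝ) : ℝ := expNegInvGlue (1 - r) / expNegInvGlue 1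

/-- the level-free cross-section -/
abbrev lf (e : En3 κ lam ν) : En3 κ lam ν := e.re 2 0 ∅ 0

/-- a level -/
abbrev lv (e : En3 κ lam ν) (c w : ℝ) (S : Set ℝ) (ψ : ℝ → ℝ) : En3 κ lam ν :=
  e.re w (fun r => c * prf r) S ψ

/-- other mass and holonomy term -/
abbrev wh (e : En3 κ lam ν) (f : ℝ → ℝ) (h : e.Y.M → En ν) : En3 κ lam ν := { e with f := f, h := h }

/-- the scale of the spinor -/
def dl (e : En3 κ lam ν) : ℝ := √(e.w / 2)

variable (κ ν) in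
/-- the fibre: a function, a one-form, a spinor -/
abbrev VV : Type := P2 (Fm (Option κ) ℝ) (Eu ν)

variable (e : En3 κ lam ν)

/-- the bundle -/
def pV (y : e.Y.M) : VV κ ν →L[ℝ] VV κ ν := sm2 (e.cyl.p1 (y, 0)) (e.cyl.pp (y, 0))

/-- the projector onto the spinors -/
def pS (y : e.Y.M) : VV κ ν →L[ℝ] VV κ ν := sm2 0 (e.cyl.pp (y, 0))

/-- the complex structure on the spinors -/
def jS (y : e.Y.M) : VV κ ν →L[ℝ] VV κ ν := sm2 0 (e.m.J * e.cyl.pp (y, 0))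

/-- Sobolev spaces -/
abbrev XH (k : ℕ) : Type := e.D.F.H k (pV e)

/-- the inclusion -/
abbrev iH : XH e 1 →L[ℝ] XH e 0 := e.D.F.incl 1 0 (pV e)

open Classical in
/-- the class of a smooth section -/
def tH (k : ℕ) (u : e.Y.M → VV κ ν) : XH e k :=
  if h : u ∈ Sec e.Y.I (pV e) then e.D.F.toH k _ ⟨u, h⟩ else 0

/-- the normalised constant function -/
def cst (_ : e.Y.M) : VV κ ν :=
  i1 _ _ (WithLp.toLp 2 fun o : Option κ => o.elim (√(e.D.F.μ univ).toReal)⁻¹ fun _ => 0)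

/-- divergence -/
def dvg (a : κ → e.Y.M → ℝ) (y : e.Y.M) : ℝ := ∑ k, (e.D.F.D k (a k) y + e.D.F.dv k y * a k y)

/-- the one-form of a circle valued function -/
def lg (u : e.Y.M → ℂ) (k : κ) (y : e.Y.M) : ℝ := (star (u y) * e.D.F.D k u y).im

/-- the period -/
def per (u : e.Y.M → ℂ) : ℝ := hol (⟨lg e u, 0⟩ : e.YC)

/-- `u` generates the components of the gauge group -/
def Lg (u : e.Y.M → ℂ) : Prop := Gau e.Y.I u ∧ ∀ v, Gau e.Y.I v → ∃ (n : ℤ) (χ : e.Y.M → ℝ),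
  Sm e.Y.I χ ∧ ∀ y, v y = u y ^ n * Complex.exp (χ y * Complex.I)

/-- hermitian masses -/
structure Herm (h : e.Y.M → En ν) : Prop where
  sm : Sm e.Y.I h
  sy : ∀ y, Sym (h y)
  J : ∀ y, e.m.J * h y = h y * e.m.J
  p : ∀ y, e.cyl.pp (y, 0) * h y * e.cyl.pp (y, 0) = h y

variable {e}

/-- true variables -/
def tv (v : e.YC) : (lf e).YC := ⟨v.a, fun y => dl e • v.Φ y⟩

/-- the action of a circle valued function (`= En3.YC.act`) -/
def ac (u : e.Y.M → ℂ) (v : e.YC) : e.YC := sl (e.cyl.act (fun x => u x.1) (fz v)) 0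

/-- the Dirac operator of `v.a` (with the mass) applied to `v.Φ` -/
def dr (v : e.YC) (y : e.Y.M) : Eu ν := -e.m.ρ none y (e.cyl.eD (fz v) (y, 0))

/-- the square of the `L²` norm of `D Φ - β Φ` -/
def fq (β : ℝ) (v : e.YC) : ℝ := ∫ y, ‖dr v y - β • v.Φ y‖ ^ 2 ∂e.D.F.μ

variable (e) in
/-- the tangent vector of a section -/
def tg (u : e.Y.M → VV κ ν) : e.YC :=
  ⟨fun k y => f2 _ _ (u y) (some k), fun y => (dl e)⁻¹ • s2 _ _ (u y)⟩

/-- the extended Hessian in true variables -/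
def hs (v : e.YC) (u : e.Y.M → VV κ ν) (y : e.Y.M) : VV κ ν :=
  i1 _ _ (WithLp.toLp 2 fun o : Option κ => o.elim
    (dvg e (tg e u).a y + dl e * ⟪e.m.J (v.Φ y), s2 _ _ (u y)⟫_ℝ) fun k =>
      deriv (fun r => (gr (v.vr (tg e u) r)).a k y) 0 - e.D.F.D k (fun z => f2 _ _ (u z) none) y) +
  i2 _ _ (dl e • (deriv (fun r => (gr (v.vr (tg e u) r)).Φ y) 0 +
    f2 _ _ (u y) none • e.m.J (v.Φ y)))

/-- the zero order part of `hs v`, explicitly -/
def av (v : e.YC) (u : e.Y.M → VV κ ν) (y : e.Y.M) : VV κ ν :=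
  i1 _ _ (WithLp.toLp 2 fun o : Option κ => o.elim (dl e * ⟪e.m.J (v.Φ y), s2 _ _ (u y)⟫_ℝ) fun k =>
    2 * ((deriv (deriv e.f) (hol v) * hol (tg e u)) • e.ζ y - e.w • e.cyl.p2 (y, 0)
      (e.cyl.qd (y, 0) ((tg e u).Φ y) (v.Φ y) + e.cyl.qd (y, 0) (v.Φ y) ((tg e u).Φ y)))
        (none, some k)) +
  i2 _ _ (dl e • (f2 _ _ (u y) none • e.m.J (v.Φ y) - e.m.ρ none y (∑ k, e.m.ρ (some k) y
    (v.a k y • e.m.J ((tg e u).Φ y) + (tg e u).a k y • e.m.J (v.Φ y))) - e.b (nm v) • (tg e u).Φ y -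
      (deriv e.b (nm v) * (2 * ∫ z, ⟪v.Φ z, (tg e u).Φ z⟫_ℝ ∂e.D.F.μ)) • v.Φ y))

variable (e)

/-- the base operator `(d*, *d, -d) ⊕ (D + h)` -/
def hs0 : (e.Y.M → VV κ ν) → e.Y.M → VV κ ν := hs (e := lf (wh e 0 e.h)) ⟨0, 0⟩

/-- the base operator on Sobolev spaces -/
abbrev L0 : XH e 1 →L[ℝ] XH e 0 := e.D.F.lift 1 0 (pV e) (pV e) (hs0 e)

/-- the step function -/
def stp : ℝ →ᵇ ℝ := exists_stp.choose

/-- the spectral flow -/
def sfE (a b : XH e 0 →L[ℝ] XH e 0) : ℤ :=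
  sf (iH e) (L0 e) (Ψ e.D.F.toPre 1 (pV e)) (TH e.D.F (pV e)) stp a b

variable {e}

/-- the zero order part of the Hessian -/
def aH (v : e.YC) : XH e 0 →L[ℝ] XH e 0 :=
  e.D.F.lift 0 0 (pV e) (pV e) fun u y => hs v u y - hs0 e u y

/-- the Hessian -/
abbrev TT (v : e.YC) : XH e 1 →L[ℝ] XH e 0 := Op (iH e) (L0 e) (aH v)

/-- reducible critical points -/
def Red (θ : e.YC) : Prop := Crit θ ∧ θ.Φ = 0

/-- the kernel of the Hessian on one-forms consists of exact forms -/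
def NdF (θ : e.YC) : Prop := ∀ a, e.cyl.Adm (fz (⟨a, 0⟩ : e.YC)) →
  (∀ k y, HasDerivAt (fun r => (gr (θ.vr ⟨a, 0⟩ r)).a k y) 0 0) →
    ∃ χ : e.Y.M → ℝ, Sm e.Y.I χ ∧ ∀ k y, a k y = -e.D.F.D k χ y

/-- the level-free Hessian -/
def aL (θ : (lf e).YC) : XH e 0 →L[ℝ] XH e 0 := aH (e := lf e) θ

/-- the invertible modification of the Hessian at a reducible point -/
def rf (θ : (lf e).YC) : XH e 0 →L[ℝ] XH e 0 := aL θ - Rad96.tt (tH e 0 (cst e))

open Classical in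
variable (e) in
/-- the chosen reducible point -/
def th : (lf e).YC := if h : ∃ θ : (lf e).YC, Red θ then h.choose else ⟨0, 0⟩

/-- **the degree**; the index from `x` to `y` is `mu x - mu y` -/
def mu (v : e.YC) : ℤ := -sfE e (rf (th e)) (aH v)

/-- the degree of the bottom of the tower over `θ` -/
def mu0 (θ : (lf e).YC) : ℤ := -sfE e (rf (th e)) (rf θ)

/-- eigenspinors -/
def Eg (θ : e.YC) (l : ℝ) (φ : e.Y.M → Eu ν) : Prop :=
  e.cyl.Adm (fz (⟨θ.a, φ⟩ : e.YC)) ∧ ∀ y, dr (⟨θ.a, φ⟩ : e.YC) y = l • φ y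

/-- the spectrum -/
def spec (θ : e.YC) : Set ℝ := {l | ∃ φ, φ ≠ 0 ∧ Eg θ l φ}

/-- simple eigenvalues -/
def Smp (θ : e.YC) (l : ℝ) : Prop :=
  ∀ φ φ', φ ≠ 0 → Eg θ l φ → Eg θ l φ' → ∃ z : ℂ, ∀ y, φ' y = cs e.m.J z (φ y)

/-- **Morse ends**: `M` lists the critical points of the level-free functional -/
structure Mo (M : (lf e).Gen) : Prop where
  ok : (lf e).OK
  om : e.om = 0
  inv : (lf e).Inv
  crit : ∀ o, Crit (M.pt o)
  nd : ∀ o, Nd (M.pt o)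
  irr : ∀ i, ∃ y, (M.x i).Φ y ≠ 0
  red : ∀ j, (M.θ j).Φ = 0
  all : ∀ v, Crit v → ∃ o, Eqv (M.pt o) v
  inj : ∀ o o', Eqv (M.pt o) (M.pt o') → o = o'
  ne : Nonempty M.ρ
  sep : ∃ ε > 0, ∀ j j' u, Gau e.Y.I u → |hol (M.θ j) - hol (M.θ j') - per e u| ≤ ε → j = j'
  fl : ∀ j, deriv e.f (hol (M.θ j)) = 0
  quad : ∀ j, ∃ s, ∀ᶠ r in 𝓝 (hol (M.θ j)), deriv e.f r = s * (r - hol (M.θ j))
  z : ∀ j, 0 ∉ spec (M.θ j)
  smp : ∀ j, ∀ l ≥ 0, Smp (M.θ j) l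

variable (e)

/-- mark: rational homology spheres -/
def Qhs : Prop := ∃ M : (lf e).Gen, Mo M ∧ e.H1 ∧ e.f = 0 ∧ Subsingleton M.ρ

/-- mark: no irreducible critical points -/
def NoOld : Prop := ∀ v : (lf e).YC, Crit v → v.Φ = 0

/-- mark: `S² × S¹` with the torsion class -/
def Tor (u : e.Y.M → ℂ) : Prop := ∃ M : (lf e).Gen, Mo M ∧ per e u ≠ 0 ∧ NoOld e ∧
  ∀ j j', j ≠ j' → Odd (mu0 (M.θ j) - mu0 (M.θ j'))

/-- mark: no critical points -/
def Dead : Prop := (lf e).OK ∧ e.om = 0 ∧ e.f = 0 ∧ ∀ v : (lf e).YC, ¬Crit v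

/-- positive scalar curvature -/
def Psc : Prop := ∀ y, 0 < Sw88.sc e.cyl (y, 0)

variable {e}

/-- labels of generators: an old point, or a reducible point with an eigenvalue -/
abbrev Lb (M : (lf e).Gen) : Type := M.ι ⊕ M.ρ × ℝ

/-- the labels that occur for the mass `c` -/
def Lb.In {M : (lf e).Gen} (c : ℝ) : Lb M → Prop :=
  Sum.elim (fun _ => True) fun p => p.2 ∈ spec (M.θ p.1) ∩ Ioo 0 c

/-- the degree of a label -/
def Lb.deg {M : (lf e).Gen} : Lb M → ℤ := Sum.elim (fun i => mu (e := lf e) (M.x i)) fun p =>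
  mu0 (M.θ p.1) + 2 * (spec (M.θ p.1) ∩ Ioo 0 p.2).ncard

/-- an even lower bound of the degrees -/
def lo (M : (lf e).Gen) : ℤ := -2 * (∑ i, |mu (e := lf e) (M.x i)| + ∑ j, |mu0 (M.θ j)|)

/-- above `lo M + hi M` there is only the tower -/
def hi (M : (lf e).Gen) : ℕ := (lo M).natAbs + ∑ i, ((mu (e := lf e) (M.x i)).natAbs + 1)

/-- **the generators of a level**, with the precision `k`, `η` -/
structure Pk (M : (lf e).Gen) {c w : ℝ} {S : Set ℝ} {ψ : ℝ → ℝ} (g : (lv e c w S ψ).Gen)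
    (lab : g.ι → Lb M) (k : ℕ) (η : ℝ) : Prop where
  ok : g.OK
  inj : Injective lab
  rng : ∀ o, o ∈ range lab ↔ o.In c
  mu : ∀ i, mu (g.x i) = (lab i).deg
  old : ∀ i o, lab i = .inl o → tv (g.x i) = M.x o ∧ 2 ≤ nm (g.x i)
  tow : ∀ i j l, lab i = .inr (j, l) → |c * prf (nm (g.x i)) - l| ≤ η ∧ ∃ φ, Eg (M.θ j) l φ ∧
    c * prf (nm (⟨(M.θ j).a, φ⟩ : (lf e).YC)) = l ∧ dist k (g.x i) ⟨(M.θ j).a, φ⟩ ≤ η
  red : ∀ j', ∃ j, tv (g.θ j') = M.θ j
  lev : ∀ o, ∃ o', |L (g.pt o) - L (M.pt o')| ≤ η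

end Crest.Agent.X212.End23
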