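import Crest.Agent.X212.End23.Mk
import Crest.Agent.X212.Sw88.Bnd
import Crest.Agent.X212.Cyc79.Ed
import Crest.Agent.X212.Es42.Rs

/-!
# Row 212, lane END-S (helper23): the generators of a level (EX, TOW, LW)
-/

set_option autoImplicit false
set_option linter.unusedSectionVars false
noncomputable section
open scoped Manifold ContDiff Topology InnerProductSpace
open MeasureTheory Set Function Filter

namespace Crest.Agent.X212.End23
open An Cyf70 Sw Sw.En3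
open Flo2 (Mk Gr Ty End Ev Lv eqv_act gau_zpow)

variable {κ lam ν : Type} [Fintype κ] [Fintype lam] [Fintype ν] [DecidableEq ν]

section gen
variable {e : En3 κ lam ν} {w w' : ℝ} {b b' ψ ψ' : ℝ → ℝ} {S S' : Set ℝ}

theorem eqv_trans (he : e.OK) {u v x : e.YC} (h : Eqv u v) (h' : Eqv v x) : Eqv u x := by
  obtain ⟨g, a, h⟩ := h
  obtain ⟨g', a', h'⟩ := h'
  have k : v = u.act g := congrArg (sl · 0) h
  have k' : x = v.act g' := congrArg (sl · 0) h'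
  rw [k', k, Flo2.act_act he a a']
  exact eqv_act (Dec47.gau_mul a' a) _

theorem ne_eqv {v v' : e.YC} (h : Eqv v v') (h0 : ∃ y, v'.Φ y ≠ 0) : ∃ y, v.Φ y ≠ 0 := by
  obtain ⟨y, hy⟩ := h0
  obtain ⟨g, -, k⟩ := h
  refine ⟨y, fun e0 => hy ?_⟩
  have : v'.Φ y = cs e.m.J (g y) (v.Φ y) := congrArg (fun c : e.ZC => c.Φ (y, 0)) k
  rw [this, e0]
  simp [cs]

/-- the same configuration on another level -/
abbrev cv (v : (e.re w b S ψ).YC) : (e.re w' b' S' ψ').YC := ⟨v.a, v.Φ⟩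

theorem gen_map {g : (e.re w b S ψ).Gen} {g' : (e.re w b S' ψ').Gen} (h : g.OK) (h' : g'.OK)
    (i : g.ι) : ∃ j, Eqv (cv (g'.x j)) (g.x i) := by
  obtain ⟨j | j, k⟩ := h'.all (cv (g.x i)) (h.crit (.inl i))
  · exact ⟨j, k⟩
  · exact let ⟨y, hy⟩ := ne_eqv k (h.irr i); (hy (h'.red j y)).elim

theorem gen_iso {g : (e.re w b S ψ).Gen} {g' : (e.re w b S' ψ').Gen} (h : g.OK) (h' : g'.OK) :
    ∃ f : g.ι → g'.ι, Bijective f ∧ ∀ i, Eqv (cv (g'.x (f i))) (g.x i) := by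
  choose f hf using gen_map h h'
  refine ⟨f, ⟨fun i j k => Sum.inl_injective (h.inj (.inl i) (.inl j)
    (eqv_trans h.ok (Cyc79.eqv_symm h.ok (hf i)) (k ▸ hf j))), fun j => ?_⟩, hf⟩
  obtain ⟨i, k⟩ := gen_map h' h j
  exact ⟨i, Sum.inl_injective (h'.inj (.inl _) (.inl j)
    (eqv_trans h'.ok (v := cv (g.x i)) (hf i) k))⟩

theorem nd_cv {v : (e.re w b S ψ).YC} (h : Nd v) : Nd (cv v : (e.re w b S' ψ').YC) :=
  fun u hu k1 k2 => h (cv u) hu k1 k2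

/-- other representatives -/
abbrev gx (g : e.Gen) (x : g.ι → e.YC) : e.Gen := { g with x := x }

theorem gen_act {g : e.Gen} (h : g.OK) {x : g.ι → e.YC} (hx : ∀ i, Eqv (g.x i) (x i)) :
    (gx g x).OK := by
  have q : ∀ o, Eqv (g.pt o) ((gx g x).pt o) := by
    rintro (i | j)
    · exact hx i
    · have := eqv_act (e := e) (u := fun _ => 1) ⟨contMDiff_const, fun _ => norm_one⟩ (g.θ j)
      rwa [Flo2.act_one] at this
  have s := fun o => Cyc79.eqv_symm h.ok (q o)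
  have l := fun o => h.inv ⟨o⟩ _ _ (h.crit o).1 (q o)
  exact ⟨h.ok, h.w, h.inv, fun o => Pb50.Eqv.crit h.ok (h.crit o) (q o),
    fun o => Cyc79.nd_eqv h.ok (h.crit o).1 (q o) (h.nd o), fun i => ne_eqv (s (.inl i)) (h.irr i),
    h.red, fun v a => (h.all v a).imp fun o k => eqv_trans h.ok (s o) k,
    fun o o' k => h.inj o o' (eqv_trans h.ok (eqv_trans h.ok (q o) k) (s o')),
    fun o => by rw [l]; exact h.S o, fun o o' => by rw [l, l]; exact h.gap o o',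
    fun o => by rw [l]; exact h.flat o, fun o o' => by rw [l, l]; exact h.sep o o'⟩

theorem red_cv {θ : (e.re w b S ψ).YC} (h : Red θ) : Red (cv θ : (e.re w' b' S' ψ').YC) := by
  obtain ⟨a, Φ⟩ := θ
  obtain ⟨⟨h1, h2, h3⟩, rfl : Φ = 0⟩ := h
  refine ⟨⟨⟨h1.1, h1.2, h1.3, h1.4⟩, fun k y => Eq.trans ?_ (h2 k y), fun y => Eq.trans ?_ (h3 y)⟩, rfl⟩
  · have : ∀ b : Bg (IC e.Y.I) (e.Y.M × ℝ) κ lam ν 0, b.qd (y, 0) 0 0 = 0 := fun b => by
      ext s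
      simp [Bg.qd]
    simp only [gr, Bg.eC, fz, Pi.zero_apply, this, smul_zero]
    rfl
  · simp only [gr, Pi.zero_apply, smul_zero]
    rfl

theorem spec_cv {θ : (e.re w b S ψ).YC} {l : ℝ} (h : l ∈ spec θ) :
    l ∈ spec (cv θ : (e.re w' b' S' ψ').YC) :=
  let ⟨φ, a, h1, h2⟩ := h; ⟨φ, a, ⟨h1.1, h1.2, h1.3, h1.4⟩, h2⟩

theorem prf_zero : prf 0 = 1 := by
  rw [prf, sub_zero, div_self (expNegInvGlue.pos_of_pos one_pos).ne']

theorem near_mul {x p : ℝ} (h : p = 0 → x = 0) : ∃ n : ℤ, |x + n * p| ≤ |p| := by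
  by_cases k : p = 0
  · exact ⟨0, by simp [h k]⟩
  refine ⟨-round (x / p), ?_⟩
  have := abs_sub_round (x / p)
  rw [show x + ((-round (x / p) : ℤ) : ℝ) * p = (x / p - round (x / p)) * p by
    push_cast; field_simp; ring, abs_mul]
  exact mul_le_of_le_one_left (abs_nonneg _) (by linarith)

end gen

variable (κ lam ν) in
/-- the leaves on critical points -/
structure LA : Prop where
  crit : CritStmt κ lam ν
  num : NumStmt κ lam ν
  rs : RsStmt κ lam ν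
  nb : NbStmt κ lam ν
  bij : BijStmt κ lam ν
  cpt : CptStmt κ lam ν
  gap : GapStmt κ lam ν
  lvl : LvlStmt
  lev : Sw88.LevStmt κ lam ν

/-- labels of the generators of an arbitrary context -/
structure Cl {e : En3 κ lam ν} (M : (lf e).Gen) (c : ℝ) (ρ : ℚ) {ι : Type} (n : ι → ℝ) (d : ι → ℚ)
    (lab : ι → Lb M) : Prop where
  inj : Injective lab
  rng : ∀ o, o ∈ range lab ↔ o.In c
  deg : ∀ i, d i = ρ + (lab i).deg
  old : ∀ i o, lab i = .inl o → 2 ≤ n i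
  tow : ∀ i j l, lab i = .inr (j, l) → |c * prf (n i) - l| ≤ 1

theorem ev_mu {𝓔 : Type} {ty : 𝓔 → Ty κ lam ν} (c : ℝ) : Ev ty fun l _ => c ≤ l.μ :=
  ⟨c, fun _ h => ⟨1, one_pos, fun _ a _ _ => h.trans a.ge⟩⟩

variable {G : Gr κ lam ν} {mk : Mk κ lam ν} {ρ : Ty κ lam ν → ℚ} (H : LA κ lam ν) (m : Mks G mk ρ)
  {ε : Ty κ lam ν} (a : ε.1.OK mk)
include H m a

theorem cls (k : ε.1.kd ≠ .dead) {M : (lf ε.en).Gen} (hM : Mo M) : Ev (fun _ : Unit => ε)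
    fun l Γ => ∃ lab, Cl M l.μ (ρ ε) (fun i => nm ((Γ.g ()).x i))
      (fun i => G.d l () ((Γ.g ()).x i)) lab := by
  refine ⟨1, fun μ hμ => ?_⟩
  by_cases h : ∀ j, μ ∉ spec (M.θ j)
  · obtain ⟨w₀, h0, hw⟩ := H.crit _ M hM μ (by linarith) h 0 1 one_pos
    refine ⟨w₀, h0, ?_⟩
    rintro ⟨_, w, S, ψ⟩ rfl h2 Γ
    obtain ⟨S', ψ', g, lab, pk⟩ := hw w ⟨Γ.w0, h2⟩
    obtain ⟨f, hf, q⟩ := gen_iso (Γ.ok ()) pk.ok
    have n := fun i => Pb50.Eqv.nm (Γ.ok ()).ok (q i)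
    refine ⟨lab ∘ f, pk.inj.comp hf.1, fun o => by rw [hf.2.range_comp, pk.rng], fun i => ?_,
      fun i o k => (pk.old _ o k).2.trans_eq (n i).symm,
      fun i j l k => n i ▸ (pk.tow _ j l k).1⟩
    have := m.gr ε a k _ _ _ _ (Γ.ok ()).ok Γ.w0 (cv (g.x (f i))) (pk.ok.crit (.inl _))
      (nd_cv (pk.ok.nd (.inl _))) (pk.ok.irr _)
    exact (this.2 _ (q i)).trans (this.1.trans (congrArg (fun z : ℤ => ρ ε + z) (pk.mu (f i))))
  · refine ⟨1, one_pos, ?_⟩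
    rintro l rfl - Γ
    push Not at h
    obtain ⟨j, h⟩ := h
    have o := Γ.ok ()
    have r : Red (cv (M.θ j) : (l.e (fun _ : Unit => ε) ()).YC) :=
      red_cv ⟨hM.crit (.inr j), hM.red j⟩
    obtain ⟨p, k⟩ := o.all _ r.1
    have := ((H.bij.red _ o.ok o.w _ r).1 ((H.bij.eqv _ o.ok _ _ (o.crit p) k).1 (o.nd p))).2
    refine (this (spec_cv ?_)).elim
    change l.μ * prf 0 ∈ _
    rwa [prf_zero, mul_one]

theorem emp (k : ε.1.kd = .dead) : Ev (fun _ : Unit => ε) fun _ Γ => IsEmpty (Γ.g ()).ι := by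
  refine ⟨0, fun μ hμ => (H.cpt.dead _ (m.dead _ (a.dead k).1 ε.2).dead μ hμ).imp fun w₀ h =>
    ⟨h.1, ?_⟩⟩
  rintro ⟨_, w, S, ψ⟩ rfl h2 Γ
  exact ⟨fun i => h.2 w ⟨Γ.w0, h2⟩ _ _ (Γ.ok ()).ok _ ((Γ.ok ()).crit (.inl i))⟩

omit H in
theorem exists_mo (k : ε.1.kd ≠ .dead) : ∃ M : (lf ε.en).Gen, Mo M ∧
    (ε.1.kd = .qhs → ε.en.H1 ∧ ε.en.f = 0 ∧ Subsingleton M.ρ) ∧ (ε.1.kd = .tor → NoOld ε.en ∧
      ∀ j j', j ≠ j' → Odd (mu0 (M.θ j) - mu0 (M.θ j'))) := by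
  rcases e : ε.1.kd with _ | _ | _
  · exact let ⟨M, h, h'⟩ := m.qhs _ (a.qhs e).1 ε.2; ⟨M, h, fun _ => h', nofun⟩
  · exact let ⟨M, h, _, h'⟩ := (m.tor _ (a.tor e).1 ε.2).tor; ⟨M, h, nofun, fun _ => h'⟩
  · exact (k e).elim

omit H in
theorem om_zero : ε.en.om = 0 := by
  by_cases k : ε.1.kd = .dead
  · exact (m.dead _ (a.dead k).1 ε.2).dead.2.1
  · exact let ⟨_, h, _⟩ := exists_mo m a k; h.om

theorem d_lf : Ev (fun _ : Unit => ε) fun l Γ => ∀ n i,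
    G.d l () (Γ.lf () n i) = G.d l () ((Γ.g ()).x i) := by
  by_cases k : ε.1.kd = .dead
  · exact (emp H m a k).mono fun _ _ h _ i => (h.false i).elim
  · exact .of_forall fun l Γ n i => (m.gr ε a k _ _ _ _ (Γ.ok ()).ok Γ.w0 _ ((Γ.ok ()).crit (.inl i))
      ((Γ.ok ()).nd (.inl i)) ((Γ.ok ()).irr i)).2 _ (eqv_act (gau_zpow a.u n) _)

theorem ev_nb : ∃ C, Ev (fun _ : Unit => ε) fun l _ => (l.e (fun _ => ε) ()).Nb C := by
  obtain ⟨-, C, h⟩ := H.nb _ (a.ok ε.2) (om_zero m a)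
  refine ⟨C, 0, fun μ hμ => ⟨1 / (9 * μ ^ 2 + 1), by positivity, ?_⟩⟩
  rintro ⟨_, w, S, ψ⟩ rfl h2 Γ
  have o := (Γ.ok ()).ok
  have := (le_div_iff₀ (by positivity)).1 h2
  have p := Γ.w0
  exact (h _ hμ w _ _ p o.S o.sψ o.mψ).2.2.1 (by nlinarith) (by nlinarith)

theorem ev_lev : ∃ C : ℝ, Ev (fun _ : Unit => ε) fun l Γ => (l.e (fun _ => ε) ()).Nb C ∧
    ∀ i, |L ((Γ.g ()).x i)| ≤ C ∧ |hol ((Γ.g ()).x i)| ≤ C := by
  obtain ⟨C, h⟩ := ev_nb H m a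
  obtain ⟨B, hB⟩ := Sw88.exists_bd (X := ε.en.Z) (a.ok ε.2).cyl
  obtain ⟨C', h'⟩ := H.lev _ (fun j => max (B j) C) (a.ok ε.2)
    (Sw88.bd_mono (X := ε.en.Z) hB (fun _ => le_max_left _ _) _)
  refine ⟨max C (max C' |hol (YC.act (e := ε.en) ε.1.u ⟨0, 0⟩)|), h.mono fun l Γ k =>
    ⟨Sw88.nb_mono k (le_max_left _ _), fun i => ⟨?_, (Γ.hb () i).trans (le_max_of_le_right (le_max_right _ _))⟩⟩⟩
  exact (h' _ _ _ _ (Γ.ok ()).ok (Sw88.nb_mono k (le_max_right _ _)) ((Γ.ok ()).inv ⟨.inl i⟩) _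
    ((Γ.ok ()).crit (.inl i))).trans (by simp)

omit a in
/-- **END-TOW** -/
theorem tow : Flo2.TowStmt G mk := fun e a => by
  by_cases k : e.kd = .dead
  · have z := fun c => emp H m (ε := ⟨e, c⟩) a k
    have n : ∀ {x}, e.kd = x → x = .dead := fun h => h ▸ k
    exact ⟨0, 0, fun c => ⟨(z c).mono fun _ _ h i => (h.false i).elim, d_lf H m a,
      ⟨0, (z c).mono fun _ _ h x => by simp [eq_empty_of_isEmpty]⟩, fun h => (nomatch n h),
      fun _ _ => rfl, fun _ _ => rfl, fun _ => (z c).mono fun _ _ h i => (h.false i).elim,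
      fun _ => z c, ev_lev H m a⟩⟩
  choose M hM hq ht using fun c => exists_mo m (ε := ⟨e, c⟩) a k
  have := Fintype.ofFinite e.L
  have cl := fun c => cls H m (ε := ⟨e, c⟩) a k (hM c)
  have tw := fun c h => H.num.tow _ _ (hM c) (hq c h).1 (hq c h).2.1 (hq c h).2.2
  refine ⟨fun c => ρ ⟨e, c⟩ + lo (M c), Finset.univ.sup fun c => hi (M c), fun c =>
    ⟨(cl c).mono fun l Γ ⟨lab, h⟩ i => ?_, d_lf H m a,
      ⟨Fintype.card (M c).ι + Fintype.card (M c).ρ, (cl c).mono fun l Γ ⟨lab, h⟩ x => ?_⟩,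
      fun q n hn => ?_, fun q p => (Finset.sup_eq_bot_iff _ _).2 fun c _ =>
        ((tw c q).2.2 (m.psc _ p c)).2, fun q p => ?_,
      fun q => (cl c).mono fun l Γ ⟨lab, h⟩ i j r => h.inj ?_, fun q => (k q).elim, ev_lev H m a⟩⟩
  · obtain ⟨n, hn⟩ := Int.eq_ofNat_of_zero_le (sub_nonneg.2 (H.num.lo _ _ (lab i)))
    refine ⟨n, (h.deg i).trans ?_⟩
    rw [add_assoc, sub_eq_iff_eq_add'.1 hn]
    push_cast
    rfl
  · rcases {i | G.d l () ((Γ.g ()).x i) = x}.eq_empty_or_nonempty with r | ⟨i₀, r⟩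
    · simp [r]
    have b := H.num.bd _ _ (hM c) l.μ (lab i₀).deg
    refine (ncard_le_ncard_of_injOn lab (fun i s => ?_) h.inj.injOn b.1).trans b.2
    refine ⟨(h.rng _).1 ⟨i, rfl⟩, ?_⟩
    exact_mod_cast add_left_cancel (((h.deg i).symm.trans (s.trans r.symm)).trans (h.deg i₀))
  · have n' : hi (M c) ≤ n := (Finset.le_sup (f := fun c => hi (M c)) (Finset.mem_univ c)).trans hn
    have d : ∀ {l : Lv Unit} {Γ : l.Cx fun _ => ⟨e, c⟩} {lab}, Cl (M c) l.μ (ρ ⟨e, c⟩)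
        (fun i => nm ((Γ.g ()).x i)) (fun i => G.d l () ((Γ.g ()).x i)) lab → ∀ i,
        G.d l () ((Γ.g ()).x i) = ρ ⟨e, c⟩ + lo (M c) + n ↔ (lab i).deg = lo (M c) + n :=
      fun h i => by
        rw [h.deg i, add_assoc, add_right_inj]
        norm_cast
    rcases n.even_or_odd with r | r
    · obtain ⟨c₀, h0⟩ := (tw c q).1 n n' r
      refine ((cl c).and (ev_mu c₀)).mono fun l Γ ⟨⟨lab, h⟩, s⟩ =>
        ⟨fun _ => ?_, fun o => (Nat.not_odd_iff_even.2 r o).elim⟩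
      obtain ⟨o, ⟨h1, h2⟩, h3⟩ := h0 _ s
      obtain ⟨i, rfl⟩ := (h.rng o).2 h1
      exact ⟨i, (d h i).2 h2, fun j s => h.inj (h3 _ ⟨(h.rng _).1 ⟨j, rfl⟩, (d h j).1 s⟩)⟩
    · exact (cl c).mono fun l Γ ⟨lab, h⟩ => ⟨fun o => (Nat.not_odd_iff_even.2 o r).elim,
        fun _ i s => (tw c q).2.1 n n' r _ _ ((h.rng _).1 ⟨i, rfl⟩) ((d h i).1 s)⟩
  · beta_reduce
    rw [(m.sph e p).2 c, ((tw c q).2.2 (m.psc _ (m.sph _ p).1 c)).1]
    simp
  · have s : NoOld (e.en c) ∧ ∀ j j', j ≠ j' → Odd (mu0 ((M c).θ j) - mu0 ((M c).θ j')) :=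
      q.elim (ht c) fun q => ⟨m.psc _ q.2 c, fun j j' n =>
        (n (@Subsingleton.elim _ (hq c q.1).2.2 j j')).elim⟩
    refine H.num.thin _ _ (hM c) s.1 s.2 _ _ _ ((h.rng _).1 ⟨i, rfl⟩) ((h.rng _).1 ⟨j, rfl⟩) ?_
    exact_mod_cast add_left_cancel (((h.deg i).symm.trans r).trans (h.deg j))

omit a in
/-- **END-LW** -/
theorem lw : Flo2.LwStmt G mk := fun ε a => by
  by_cases k : ε.1.kd = .dead
  · exact (emp H m a k).mono fun _ _ h i => (h.false i).elim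
  have x : ∃ M : (lf ε.en).Gen, Mo M := (exists_mo m a k).imp fun _ h => h.1
  refine (cls H m a k x.choose_spec).mono fun l Γ ⟨lab, h⟩ i => (m.lw ε).trans ?_
  rw [h.deg i, lo', dif_pos x]
  exact_mod_cast add_le_add_right (Int.cast_le (R := ℚ).2 (H.num.lo _ _ (lab i))) _

omit a in
/-- **END-EX** -/
theorem ex : Flo2.ExStmt mk := fun ε a => by
  by_cases k : ε.1.kd = .dead
  · refine ⟨∅, countable_empty, fun μ hμ _ => (H.cpt.dead _ (m.dead _ (a.dead k).1 ε.2).dead μ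
      hμ.le).imp fun w₀ h => ⟨h.1, fun w hw => ⟨⟨μ, w, fun _ => ∅, fun _ => 0⟩, rfl, rfl, ?_⟩⟩⟩
    obtain ⟨-, C, n⟩ := H.nb _ (a.ok ε.2) (om_zero m a)
    have o := (n μ hμ.le w ∅ 0 hw.1 isCompact_empty contDiff_const monotone_const).1
    have z := h.2 w hw _ _ o
    refine ⟨⟨fun _ => ⟨Empty, Empty, Empty.elim, Empty.elim⟩, fun _ => ⟨o, hw.1, by simp, by simp,
      by simp, by simp, by simp, fun v c => (z v c).elim, by simp, by simp, by simp, by simp,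
      by simp⟩, fun _ => ?_, fun _ _ p => p.2.elim, hw.1, fun _ i => i.elim⟩⟩
    rw [range_eq_empty]
    exact ⟨by simp, fun v c => (z v c).elim, by simp, by simp, ⟨0, by simp⟩⟩
  obtain ⟨M, hM, -⟩ := exists_mo m a k
  refine ⟨⋃ j, ⋃ n : ℕ, spec (M.θ j) ∩ Icc (-n) n, countable_iUnion fun j => countable_iUnion fun n =>
    ((H.gap _ hM.ok _ (hM.crit (.inr j)).1).1 n).countable, fun μ hμ h => ?_⟩
  obtain ⟨w₀, h0, hw⟩ := H.crit _ M hM μ hμ (fun j s => let ⟨n, hn⟩ := exists_nat_ge μ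
    h (mem_iUnion₂.2 ⟨j, n, s, by linarith, hn⟩)) 0 1 one_pos
  refine ⟨w₀, h0, fun w r => ?_⟩
  obtain ⟨S, ψ, g, lab, pk⟩ := hw w r
  have p1 : Sw88.per ε 1 = hol (YC.act (e := ε.en) ε.1.u ⟨0, 0⟩) := by simp [Sw88.per]
  have p2 : Sw88.per ε 1 = -per ε.en ε.1.u := by
    rw [p1]
    exact (Es42.hol_ay (a.ok _) Sw88.adm_zero a.u).trans (by simp [hol])
  have pt : ε.1.kd = .tor → per ε.en ε.1.u ≠ 0 := fun q =>
    let ⟨_, _, h, _⟩ := (m.tor _ (a.tor q).1 ε.2).tor; h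
  have kq : ε.1.kd = .qhs ∨ ε.1.kd = .tor := by
    revert k
    cases ε.1.kd <;> simp
  have hl : ∀ (n : ℤ) (v : (lv ε.en μ w S ψ).YC), Crit v →
      hol (v.act fun y => ε.1.u y ^ n) = hol v + n * Sw88.per ε 1 := fun n v c => by
    rw [← Sw88.per_eq a]
    exact Sw88.hol_yact pk.ok.ok (gau_zpow a.u n) c.1
  choose n hn using fun i => near_mul (x := hol (g.x i)) (p := Sw88.per ε 1) fun z =>
    kq.elim (fun q => Sw88.hol_zero (a.qhs q).2.2.1 _) fun q => (pt q (by linarith)).elim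
  have o := gen_act pk.ok fun i => eqv_act (gau_zpow a.u (n i)) _
  refine ⟨⟨μ, w, fun _ => S, fun _ => ψ⟩, rfl, rfl, ⟨fun _ => _, fun _ => o, fun _ => ?_,
    fun _ q p p' s => ?_, r.1, fun _ i => ?_⟩⟩
  · have lg : Lg (lv ε.en μ w S ψ) ε.1.u := (m.kn a).2.1
    have pp : ε.1.u = 1 ∨ per (lv ε.en μ w S ψ) ε.1.u ≠ 0 := kq.imp (fun q => (a.qhs q).2.1) pt
    have := H.rs _ _ ε.1.u o lg pp
    refine (congrArg Rs (Set.ext fun v => ?_)).mpr this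
    exact ⟨fun ⟨p, s⟩ => ⟨p.1, p.2, s.symm⟩, fun ⟨n, i, s⟩ => ⟨(n, i), s.symm⟩⟩
  · obtain ⟨n1, i⟩ := p
    obtain ⟨n2, j⟩ := p'
    have t := Cyc79.eqv_symm o.ok (eqv_act (gau_zpow a.u n2) ((gx g _).pt (.inl j)))
    obtain rfl : i = j := Sum.inl_injective (o.inj (.inl i) (.inl j) (eqv_trans o.ok
      (eqv_act (gau_zpow a.u n1) _) ((congrArg (Eqv · _) s).mpr t)))
    have := (hl n1 _ (o.crit (.inl i))).symm.trans ((congrArg hol s).trans (hl n2 _ (o.crit (.inl i))))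
    exact Prod.ext (Int.cast_injective (mul_right_cancel₀ (p2 ▸ neg_ne_zero.2 (pt q))
      (add_left_cancel this))) rfl
  · exact ((congrArg abs (hl _ _ (pk.ok.crit (.inl i)))).trans_le (hn i)).trans_eq (congrArg abs p1)

/-- the generators of bounded degree -/
theorem start (r : ℚ) : ∃ Λ : ℝ, Ev (fun _ : Unit => ε) fun l Γ => ∀ v ∈ Γ.V (), G.d l () v ≤ r →
    l.μ * prf (nm v) ≤ Λ ∧ 1 / 2 ≤ nm v := by
  by_cases k : ε.1.kd = .dead
  · exact ⟨0, (emp H m a k).mono fun _ _ h v ⟨p, _⟩ => (h.false p.2).elim⟩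
  obtain ⟨M, hM, -⟩ := exists_mo m a k
  obtain ⟨Λ, h⟩ := (H.num.win _ M hM).1 ⌊r - ρ ε⌋
  refine ⟨|Λ| + 1, (((cls H m a k hM).and (d_lf H m a)).and (ev_mu (3 * (|Λ| + 2)))).mono ?_⟩
  rintro l Γ ⟨⟨⟨lab, c⟩, d⟩, p⟩ _ ⟨⟨n, i⟩, rfl⟩ s
  rw [show nm (Γ.lf () n i) = nm ((Γ.g ()).x i) from
    Pb50.Eqv.nm (Γ.ok ()).ok (eqv_act (gau_zpow a.u n) _)]
  have p0 := abs_nonneg Λ
  rcases q : lab i with o | ⟨j, x⟩
  · have := c.old i o q
    rw [show l.μ * prf _ = 0 from (Γ.ok ()).ok.b1 _ (by linarith)]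
    exact ⟨by linarith, by linarith⟩
  · have h1 := h l.μ j x (q ▸ (c.rng _).1 ⟨i, rfl⟩) (Int.le_floor.2 (by
      rw [← q, le_sub_iff_add_le', ← c.deg i, ← d n i]; exact s))
    have h2 := (abs_le.1 (c.tow i j x q)).2
    have h3 := le_abs_self Λ
    refine ⟨by linarith, le_of_not_gt fun h4 => ?_⟩
    have := H.lvl.2.2.2.2.2.trans (H.lvl.2.2.2.2.1 h4.le)
    nlinarith

end Crest.Agent.X212.End23
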