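import Crest.Agent.X212.End23.Nek
import Crest.Agent.X212.Flo2.Lev

/-!
# Row 212, lane END-S (helper23): the cores

`Vx P σ d` : the vertex on the sides `σ` of the necks, up to the depth `d`.  `Uc` : quantitative unique
continuation.  `Nr` : no reducible solution on the root.
-/

set_option autoImplicit false
set_option linter.unusedSectionVars false
noncomputable section
open scoped Manifold ContDiff Topology InnerProductSpace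
open MeasureTheory Set Function Filter

namespace Crest.Agent.X212.End23
open An Cyf70 Sw Sw.En3
open Nd18 (Jv ct)
open M (Mf)
open Flo2 (Gc Tr Mk)

variable {κ lam ν : Type} [Fintype κ] [Fintype lam] [Fintype ν] [DecidableEq ν]

section piece
variable {X : Mf 4} {nc : ℕ} {N : Type} [Fintype N] {e : N → En3 κ lam ν}

/-- within the depth `d` of the past (`false`) or future (`true`) side of a neck -/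
def sd {e : En3 κ lam ν} {b : Bg X.I X.M κ lam ν nc} (K : Nk e b) (s : Bool) (d : ℝ) : Set X.M :=
  {x | if s then ∃ r ∈ K.q, r - d < K.tm x else ∃ r ∈ K.p, K.tm x < r + d}

/-- the times of depth between `a` and `a'` at the side `s` -/
def col {e : En3 κ lam ν} {b : Bg X.I X.M κ lam ν nc} (K : Nk e b) (s : Bool) (a a' : ℝ) : Set ℝ :=
  if s then Ioo (K.q.getD 0 - a') (K.q.getD 0 - a) else Ioo (K.p.getD 0 + a) (K.p.getD 0 + a')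

variable (P : Pz X nc e)

/-- the vertex on the sides `σ` -/
def Vx (σ : N → Bool) (d : ℝ) : Set X.M := {x | ∀ i, ¬P.Off i → ∀ K ∈ P.nk i, x ∈ sd K (σ i) d}

/-- the neck `i` touches the vertex -/
def Adj (σ : N → Bool) (i : N) : Prop :=
  ¬P.Off i ∧ ∀ K ∈ P.nk i, K.ψ '' (univ ×ˢ col K (σ i) 0 1) ⊆ Vx P σ 1

/-- the mass of a vertex -/
def ms (σ : N → Bool) (φ : X.M → Eu ν) : ℝ := ∫ x in Vx P σ (1 / 2), ‖φ x‖ ^ 2 ∂P.bg.F.μ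

/-- local solutions, with a second spinor -/
structure Lc (b : Bg X.I X.M κ lam ν nc) (O : Set X.M) (C : ℝ) (c : Cfg X.M κ ν) (φ : X.M → Eu ν) :
    Prop where
  adm : b.AdmOn c O
  adm' : b.AdmOn ⟨c.a, φ⟩ O
  eD : ∀ x ∈ O, b.eD c x = 0 ∧ b.eD ⟨c.a, φ⟩ x = 0
  eC : ∀ w : List (Option κ), w.length ≤ 6 → ∀ x ∈ O, ‖b.F.Dw w (b.eC c) x‖ ≤ C
  sup : ∀ x ∈ O, ‖c.Φ x‖ ≤ C
  fc : ∫⁻ x in O, ‖b.fc c x‖ₑ ^ 2 ∂b.F.μ ≤ ENNReal.ofReal C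

/-- no concentration at the side `s` of the neck `i` -/
def Gw (M : ℝ) (c : Cfg X.M κ ν) (i : N) (s : Bool) : Prop := ∀ K ∈ P.nk i,
  ∀ t ∈ col K s (1 / 2) (5 / 8), ∀ t' ∈ col K s (5 / 8) (3 / 4),
    nm (sl (K.pb c) t') ≤ M * nm (sl (K.pb c) t)

/-- a good slice at the side `s` of the neck `i`, of the size `m` -/
def Gs (Λ m : ℝ) (c : Cfg X.M κ ν) (i : N) (s : Bool) : Prop := ∀ K ∈ P.nk i,
  ∃ t ∈ col K s (3 / 8) (1 / 2), fq 0 (sl (K.pb c) t) ≤ Λ * nm (sl (K.pb c) t) ∧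
    m ≤ Λ * nm (sl (K.pb c) t) ∧ nm (sl (K.pb c) t) ≤ Λ * m

/-- quantitative unique continuation -/
def Uc (C M Λ : ℝ) : Prop := ∀ σ c φ, Lc P.bg (Vx P σ (7 / 8)) C c φ →
  (∀ i, Adj P σ i → Gw P M ⟨c.a, φ⟩ i (σ i)) → ∀ i, Adj P σ i → Gs P Λ (ms P σ φ) ⟨c.a, φ⟩ i (σ i)

/-- the neck is cut at the depth `L` -/
def Ct {e : En3 κ lam ν} {b : Bg X.I X.M κ lam ν nc} (K : Nk e b) (L a : ℝ) : Prop :=
  K.p = some a ∧ ∀ r ∈ K.q, a + L + 2 ≤ r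

/-- the root -/
def Rt (L : ℝ) : Set X.M := {x | ∀ i, ∀ K ∈ P.nk i, ∀ a, Ct K L a → K.tm x < a + L}

/-- no reducible solution on the root, with the margin `δ` -/
def Nr (L δ : ℝ) : Prop := ∀ c : Cfg X.M κ ν, c.Φ = 0 → P.bg.AdmOn c (Rt P L) →
  (∀ i, ∀ K ∈ P.nk i, ∀ a, Ct K L a → K.ψ '' (univ ×ˢ Ioo a (a + L)) ⊆ Rt P L →
    ∃ θ : (e i).YC, Red θ ∧ ∀ x ∈ univ ×ˢ Ioo (a + L - 1) (a + L), ∀ k, c.a k (K.ψ x) = (fz θ).a k x) →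
  ENNReal.ofReal δ ≤ ∫⁻ x in Rt P L, ‖P.bg.eC c x - P.p0.C c x‖ₑ ^ 2 ∂P.bg.F.μ

/-- the incoming ends lie in the past of the long necks -/
def Up : Prop := ∀ i, ∀ K ∈ P.nk i, ∀ a ∈ K.p, ∀ r ∈ K.q, a + 3 < r → ∀ j, P.Inf j false →
  ∀ K' ∈ P.nk j, ∀ x ∈ K'.ψ.target, K.tm x ≤ a

end piece

section fam
variable (d : Dt κ lam ν) {N : Type} [Fintype N] (ty : N → d.𝓔) (X : Mf 4) (nc : ℕ)
  (T : Type) [NormedAddCommGroup T] [NormedSpace ℝ T] [FiniteDimensional ℝ T]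

variable {d ty X nc T} in
/-- bounds of three derivatives in the frame of the site -/
def Bd3 {s : Pz X 0 fun i => d.e (ty i)} (𝓕 : Fam s nc T) {ι : Type} (l : Filter ι) (t : ι → T)
    (c : ι → Cfg X.M κ ν) (V : Set X.M) : Prop := ∃ B : ℝ, ∀ᶠ i in l,
  (𝓕.P (t i)).bg.AdmOn (c i) V ∧ ∀ w : List (Option κ), w.length ≤ 3 → ∀ x ∈ V,
    ‖s.bg.F.Dw w (𝓕.al (t i) (c i)) x‖ ≤ B ∧ ‖s.bg.F.Dw w (c i).Φ x‖ ≤ B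

/-- EC-LOCA: local bounds in a good gauge -/
def LocaStmt : Prop := ∀ (s : Pz X 0 fun i => d.e (ty i)) (𝓕 : Fam s nc T), 𝓕.OK →
  ∀ (ι : Type) (𝒰 : Ultrafilter ι) (t : ι → T) (c : ι → Cfg X.M κ ν) (φ : ι → X.M → Eu ν) t₀ (C : ℝ)
    (U : Set X.M),
    t₀ ∈ 𝓕.Q → Tendsto t 𝒰 (𝓝 t₀) → IsOpen U →
    (∀ᶠ i in (𝒰 : Filter ι), Lc (𝓕.P (t i)).bg U C (c i) (φ i) ∧
      ∫⁻ x in U, ‖φ i x‖ₑ ^ 2 ∂(𝓕.P (t i)).bg.F.μ ≤ ENNReal.ofReal C) →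
    ∀ z ∈ U, ∃ V, IsOpen V ∧ z ∈ V ∧ V ⊆ U ∧ ∃ u : ι → X.M → ℂ,
      (∀ᶠ i in (𝒰 : Filter ι), GauOn X.I (u i) V) ∧
        Bd3 𝓕 𝒰 t (fun i => (𝓕.P (t i)).bg.act (u i) ⟨(c i).a, φ i⟩) V

/-- EC-LOCU: limits of harmonic spinors have the unique continuation property -/
def LocuStmt : Prop := ∀ (s : Pz X 0 fun i => d.e (ty i)) (𝓕 : Fam s nc T), 𝓕.OK →
  ∀ (ι : Type) (𝒰 : Ultrafilter ι) (t : ι → T) (c : ι → Cfg X.M κ ν) t₀ (V : Set X.M),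
    t₀ ∈ 𝓕.Q → Tendsto t 𝒰 (𝓝 t₀) → IsOpen V → Bd3 𝓕 𝒰 t c V →
    (∀ᶠ i in (𝒰 : Filter ι), ∀ x ∈ V, (𝓕.P (t i)).bg.eD (c i) x = 0) →
    ∃ f : X.M → ℝ, TendstoLocallyUniformlyOn (fun i x => ‖(c i).Φ x‖) f 𝒰 V ∧
      ∀ z ∈ V, z ∈ closure {y | f =ᶠ[𝓝 y] 0} → f =ᶠ[𝓝 z] 0

/-- EC-UC: compact families (from LOCA, LOCU, TOP) -/
def UcStmt : Prop := ∀ (s : Pz X 0 fun i => d.e (ty i)) (𝓕 : Fam s nc T), 𝓕.OK → ∀ T₀ ⊆ 𝓕.Q,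
  IsCompact T₀ → ∀ C M : ℝ, ∃ Λ : ℝ, ∀ t ∈ T₀, Uc (𝓕.P t).toPz C M Λ

end fam

variable (κ lam ν)

/-- EC-TOP: the sides of necks -/
structure TopStmt : Prop where
  con : ∀ (X : Mf 4) (nc : ℕ) (e : En3 κ lam ν) (b : Bg X.I X.M κ lam ν nc) (K : Nk e b)
    (U : Set X.M), IsOpen U → IsPreconnected U → K.ψ.target ⊆ U → ∀ a ∈ K.J,
    IsPreconnected (U ∩ {x | K.tm x < a}) ∧ IsPreconnected (U ∩ {x | a < K.tm x})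
  vx : ∀ (X : Mf 4) (nc : ℕ) (N : Type) [Fintype N] (e : N → En3 κ lam ν) (P : Pz X nc e), P.OK →
    ∀ σ, ∀ r ∈ Ioc (0 : ℝ) 1, IsOpen (Vx P σ r) ∧ IsPreconnected (Vx P σ r) ∧
      IsCompact (closure (Vx P σ r)) ∧ ∀ r' < r, closure (Vx P σ r') ⊆ Vx P σ r
  sp : ∀ (X X₁ X₂ : Mf 4) (nc nc₁ nc₂ : ℕ) (N N₁ N₂ : Type) [Fintype N] [Fintype N₁] [Fintype N₂]
    (ty : N → Flo2.Ty κ lam ν) (ty₁ : N₁ → Flo2.Ty κ lam ν) (ty₂ : N₂ → Flo2.Ty κ lam ν)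
    (P : Pz X nc fun i => (ty i).en) i (P₁ : Pz X₁ nc₁ fun i => (ty₁ i).en) j₁
    (P₂ : Pz X₂ nc₂ fun i => (ty₂ i).en) j₂ l r δ r₁ r₂ c, P.OK → P₁.OK → P₂.OK →
    Sp2 (en := Flo2.Ty.en) P i P₁ j₁ P₂ j₂ l r δ r₁ r₂ c → ∀ K ∈ P.nk i, ∀ a ∈ K.p, ∀ b ∈ K.q,
      l.target = {x | K.tm x < b} ∧ r.target = {x | a < K.tm x}

/-- EC-TRF: unique continuation passes from the two parts to the whole (from TOP) -/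
def TrfStmt : Prop := ∀ (X X₁ X₂ : Mf 4) (nc nc₁ nc₂ : ℕ) (N N₁ N₂ : Type) [Fintype N] [Fintype N₁]
  [Fintype N₂] (ty : N → Flo2.Ty κ lam ν) (ty₁ : N₁ → Flo2.Ty κ lam ν) (ty₂ : N₂ → Flo2.Ty κ lam ν)
  (P : Pz X nc fun i => (ty i).en) i (P₁ : Pz X₁ nc₁ fun i => (ty₁ i).en) j₁
  (P₂ : Pz X₂ nc₂ fun i => (ty₂ i).en) j₂ l r δ r₁ r₂ c, P.OK → P₁.OK → P₂.OK → ¬P.Off i →
  (∀ K ∈ P.nk i, K.p ≠ none ∧ K.q ≠ none) → Sp2 (en := Flo2.Ty.en) P i P₁ j₁ P₂ j₂ l r δ r₁ r₂ c →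
  ∀ C M Λ, Uc P₁ C M Λ → Uc P₂ C M Λ → Uc P C M Λ

/-- uniform unique continuation -/
def UcA (g : Gc κ lam ν) : Prop := ∀ C M : ℝ, ∃ Λ : ℝ, ∀ t ∈ g.dom, Uc (g.P t) C M Λ

/-- EC-TREE: induction over trees -/
structure TreeStmt (mk : Mk κ lam ν) : Prop where
  /-- from UC, TRF -/
  uc : ∀ (g : Gc κ lam ν) (T : Tr g), T.WF mk → UcA κ lam ν g
  /-- from TOP -/
  up : ∀ (g : Gc κ lam ν) (T : Tr g), T.WF mk → ∀ t ∈ g.dom, Up (g.P t)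
  /-- from TOP -/
  nr : ∀ (g : Gc κ lam ν) (T : Tr g), T.WF mk → T.Irr → g.pin = none →
    ∃ δ > 0, ∀ L ≥ 4, ∀ t ∈ g.dom, Nr (g.P t) L δ

/-- EC-POS: the spinor does not vanish on a slice -/
def PosStmt : Prop := ∀ (X : Mf 4) (nc : ℕ) (N : Type) [Fintype N] (e : N → En3 κ lam ν)
  (P : Pz X nc e), P.OK → ∀ c, P.bg.Adm c → (∀ x, P.bg.eD c x = P.p0.D c x) → (∃ x, c.Φ x ≠ 0) →
    ∀ i, ∀ K ∈ P.nk i, ∀ t ∈ K.J, 0 < nm (sl (K.pb c) t)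

/-- EC-ASY: slices converge at an end -/
def AsyStmt : Prop := ∀ (X : Mf 4) (nc : ℕ) (e : En3 κ lam ν) (b : Bg X.I X.M κ lam ν nc)
  (K : Nk e b) s v c, e.OK → K.Inf s → b.Adm c → e.cyl.Adm (fz v) → K.Asy s v c →
    Tendsto (fun t => nm (sl (K.pb c) (M.pm s * t))) atTop (𝓝 (nm v)) ∧
      ∀ β, Tendsto (fun t => fq β (sl (K.pb c) (M.pm s * t))) atTop (𝓝 (fq β v))

/-- EC-NSI: solutions on pieces are solutions on necks (from ENW) -/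
def NsiStmt : Prop := ∀ C : ℕ → ℝ, ∃ C' : ℝ, ∀ (d : Dt κ lam ν) (X : Mf 4) (nc : ℕ) (N : Type)
  [Fintype N] (ty : N → d.𝓔) (P : Pc d X nc ty), P.OK → ∀ η ≤ 1, ∀ q, P.Small 6 η q → ∀ c,
    P.bg.Adm c → P.bg.EqOn (P.pt q) c univ → P.ean c ≤ ENNReal.ofReal (C 0) → ∀ i,
    Bg.Bd (X := (d.e (ty i)).Z) (d.e (ty i)).cyl C → (d.e (ty i)).Nb (C 0) →
      ∀ K ∈ P.nk i, NS K.p K.q C' (2 * η) (K.pb c)

/-- EC-C0V: bounds of the true spinor -/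
structure C0vStmt : Prop where
  /-- the crude bound scales with `w` -/
  crude : ∀ (N : Type) [Fintype N] (e : N → En3 κ lam ν) (C : ℕ → ℝ) (B R : ℝ), ∃ K : ℝ,
    ∀ w > 0, ∀ (b : N → ℝ → ℝ) (S : N → Set ℝ) (ψ : N → ℝ → ℝ), (∀ i r, b i r ≤ B) → ∀ (X : Mf 4) (nc : ℕ)
      (P : Pz X nc fun i => (e i).re w (b i) (S i) (ψ i)), P.OK → P.bg.Bd C → P.bg.w = w → ∀ c,
      P.bg.Adm c → (∀ x, P.bg.eD c x = P.p0.D c x ∧ ‖P.bg.eC c x - P.p0.C c x‖ ≤ R) →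
        ∀ x, √w * ‖c.Φ x‖ ≤ K
  /-- on a vertex the bound does not depend on the level -/
  vx : ∀ (N : Type) [Fintype N] (e : N → En3 κ lam ν) (C : ℕ → ℝ) (R : ℝ), ∃ K : ℝ,
    ∀ (X : Mf 4) (nc : ℕ) (P : Pz X nc e), P.OK → P.bg.Bd C → P.bg.w = 1 → ∀ σ c, P.bg.Adm c →
      (∀ x ∈ Vx P σ 1, P.bg.eD c x = 0 ∧ ‖P.bg.eC c x‖ ≤ R) → ∀ x ∈ Vx P σ (7 / 8), ‖c.Φ x‖ ≤ K

/-- EC-BIG: the spinor is not small on the root (from HDG, SLC, C0U, TOP) -/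
def BigStmt : Prop := ∀ (N : Type) [Fintype N] (e : N → En3 κ lam ν) (u : ∀ i, (e i).Y.M → ℂ),
  (∀ i, Kn (e i) (u i)) → ∀ C δ : ℝ, 0 < δ → ∃ L ≥ (4 : ℝ), ∃ η > 0, ∀ c ≥ 0, ∀ B : ℝ, ∃ w₀ > 0,
    ∀ w ∈ Ioc 0 w₀, ∀ (S : N → Set ℝ) (ψ : N → ℝ → ℝ),
    (∀ i, (lv (e i) c w (S i) (ψ i)).OK) → ∀ (X : Mf 4) (nc : ℕ) (P : Pz X nc e), P.OK →
    P.bg.F.μ (P.thick 3) ≤ ENNReal.ofReal C → Nr P L δ → (∀ i, ¬P.Inf i false) →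
    ∀ A, P.bg.Adm A → (∀ x, ‖(P.re w (fun _ r => c * prf r) S ψ).bg.eC A x - P.p0.C A x‖ ≤ η) →
      (∀ x, √w * ‖A.Φ x‖ ≤ B) →
      (∀ i, ∀ K ∈ P.nk i, NS (e := lv (e i) c w (S i) (ψ i)) K.p K.q C η (K.pb A) ∧
        ∀ t ∈ K.J, 0 < nm (sl (K.pb A) t)) →
      ENNReal.ofReal B < ∫⁻ x in Rt P L, ‖A.Φ x‖ₑ ^ 2 ∂P.bg.F.μ

end Crest.Agent.X212.End23
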