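import Crest.Agent.X212.End23.Prp
import Crest.Agent.X212.End23.Tw
import Crest.Agent.X212.Sw88.Nsi
import Crest.Agent.X212.Prm93.Bk

/-!
# Row 212, lane END-S (helper23): solutions on pieces, uniformly in the level
-/

set_option autoImplicit false
set_option linter.unusedSectionVars false
noncomputable section
open scoped Manifold ContDiff Topology InnerProductSpace
open MeasureTheory Set Function Filter

namespace Crest.Agent.X212.End23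
open An Cyf70 Sw Sw.En3 Sob92
open Nd18 (Jv ct Dp)
open M (Mf pm)
open Flo2 (Mk Gr Ty End Ev Lv)
open Sw88 (mem_deep nm_nonneg)

variable {κ lam ν : Type} [Fintype κ] [Fintype lam] [Fintype ν] [DecidableEq ν]

section mono
variable {e : En3 κ lam ν} {M M' c C C' η η' : ℝ} {A : e.ZC} {I : Set ℝ} {p q : Option ℝ}

theorem Fw.mono (h : Fw M A I) (k : M ≤ M') : Fw M' A I :=
  ⟨fun s a t b l => (h.low s a t b l).trans (mul_le_mul_of_nonneg_right k (nm_nonneg _)),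
    fun s a t b l l' => (h.sh s a t b l l').trans (mul_le_mul_of_nonneg_right k (nm_nonneg _)),
    fun t a β b l => (h.fr t a β b l).trans k⟩

theorem Bw.mono (h : Bw p q M c A I) (k : M ≤ M') : Bw p q M' c A I :=
  ⟨fun s a t b l l' z => (h.sh s a t b l l' z).trans (mul_le_mul_of_nonneg_right k (nm_nonneg _)),
    fun s a t b l => (h.gro s a t b l).trans (mul_le_mul_of_nonneg_right (Real.exp_le_exp.2
      (mul_le_mul_of_nonneg_right (by linarith) (by linarith))) (nm_nonneg _))⟩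

theorem NS.mono (h : NS p q C η A) (k : C ≤ C') (k' : η ≤ η') : NS p q C' η' A :=
  ⟨h.len, h.adm, h.eD, fun w a x b => (h.τ w a x b).trans k',
    h.en.trans (ENNReal.ofReal_le_ofReal k), fun s a => (h.ed s a).trans (ENNReal.ofReal_le_ofReal k)⟩

theorem crit_fq {v : e.YC} (h : Crit v) (β : ℝ) : fq β v = (e.b (nm v) - β) ^ 2 * nm v := by
  have : ∀ y, dr v y = e.b (nm v) • v.Φ y := fun y => sub_eq_zero.1 (h.2.2 y)
  simp only [fq, this, ← sub_smul, norm_smul, mul_pow, Real.norm_eq_abs, sq_abs, integral_const_mul]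
  rfl

theorem nm_pos {v : e.YC} (h : Gd v) : 0 < nm v := by
  have := Sob92.openPos e.D.F.toPre
  obtain ⟨y, hy⟩ := h.irr
  have c : Continuous fun y => ‖v.Φ y‖ ^ 2 :=
    (h.crit.1.sΦ.continuous.comp (Continuous.prodMk_left 0)).norm.pow 2
  exact c.integral_pos_of_hasCompactSupport_nonneg_nonzero (.of_compactSpace _)
    (fun _ => sq_nonneg _) (x := y) (pow_ne_zero _ (norm_ne_zero_iff.2 hy))

end mono

/-- the conclusion on a neck -/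
def NC (e : En3 κ lam ν) (p q : Option ℝ) (Λ M c : ℝ) (A : e.ZC) : Prop := ∀ s ∈ Jd p q (1 / 4),
  (fq 0 (sl A s) ≤ Λ * nm (sl A s) → Fw M A (Jd p q (1 / 4) ∩ Ici s)) ∧
    (∀ β ≥ 0, fq β (sl A s) ≤ Λ * nm (sl A s) → Bw p q M c A (Jd p q (1 / 4) ∩ Iic s)) ∧
    (Fw M A (Jd p q (1 / 4) ∩ Ici s) ∨ Bw p q M c A (Jd p q (1 / 4) ∩ Iic s))

theorem ev_Ioc {p : ℝ → Prop} : (∀ᶠ w in 𝓝[>] (0 : ℝ), p w) ↔ ∃ w₀ > 0, ∀ w ∈ Ioc 0 w₀, p w :=
  mem_nhdsGT_iff_exists_Ioc_subset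

theorem ev_of {𝓔 : Type} {ty : 𝓔 → Ty κ lam ν} {p : ℝ → ℝ → Prop} {M : ℝ}
    (h : ∀ c ≥ M, ∀ᶠ w in 𝓝[>] (0 : ℝ), p c w) : Ev ty fun l _ => p l.μ l.w :=
  ⟨M, fun c a => (ev_Ioc.1 (h c a)).imp fun _ k => ⟨k.1, fun _ e b Γ => by subst e; exact k.2 _ ⟨Γ.w0, b⟩⟩⟩

theorem neck_uni (hN : NeckStmt κ lam ν) {N : Type} [Finite N] {e : N → En3 κ lam ν}
    {u : ∀ i, (e i).Y.M → ℂ} (h : ∀ i, Kn (e i) (u i)) (C Λ : ℝ) : ∀ᶠ M in atTop,
    ∀ᶠ η in 𝓝[>] (0 : ℝ), ∀ c ≥ M, ∀ K, ∀ᶠ w in 𝓝[>] (0 : ℝ), ∀ i S ψ, (lv (e i) c w S ψ).OK →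
      ∀ p q (A : (lv (e i) c w S ψ).ZC), NS p q C η A → Sb A (Jv p q) K →
        (∀ t ∈ Jv p q, 0 < nm (sl A t)) → NC (e i) p q Λ M c A := by
  have : ∀ i, ∀ᶠ M in atTop, ∀ᶠ η in 𝓝[>] (0 : ℝ), ∀ c ≥ M, ∀ K, ∀ᶠ w in 𝓝[>] (0 : ℝ), ∀ S ψ,
      (lv (e i) c w S ψ).OK → ∀ p q (A : (lv (e i) c w S ψ).ZC), NS p q C η A → Sb A (Jv p q) K →
        (∀ t ∈ Jv p q, 0 < nm (sl A t)) → NC (e i) p q Λ M c A := fun i => by
    obtain ⟨M, -, η, h0, k⟩ := hN _ _ (h i) C Λ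
    filter_upwards [eventually_ge_atTop M] with M' a
    refine ev_Ioc.2 ⟨η, h0, fun η' b c d K => (ev_Ioc.2 (k c (a.trans d) K)).mono
      fun w r S ψ o p q A h1 h2 h3 s hs => ?_⟩
    have f : ∀ {I}, Fw M A I → Fw (e := e i) M' A I := fun r => Fw.mono ⟨r.1, r.2, r.3⟩ a
    have g : ∀ {I}, Bw p q M c A I → Bw (e := e i) p q M' c A I := fun r => Bw.mono ⟨r.1, r.2⟩ a
    obtain ⟨r1, r2, r3⟩ := r S ψ o p q A (h1.mono le_rfl b.2) h2 h3 s hs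
    exact ⟨fun z => f (r1 z), fun β z z' => g (r2 β z z'), r3.imp f g⟩
  filter_upwards [eventually_all.2 this] with M a
  filter_upwards [eventually_all.2 a] with η b c d K
  exact eventually_all.2 fun i => b i c d K

variable {X : Mf 4} {nc : ℕ}

theorem asy_sl {e : En3 κ lam ν} {b : Bg X.I X.M κ lam ν nc} {K : Nk e b} {s : Bool} (h : K.Inf s)
    {n f : ℝ → ℝ} {n₀ f₀ Λ a : ℝ} (h1 : Tendsto (fun t => n (pm s * t)) atTop (𝓝 n₀))
    (h2 : Tendsto (fun t => f (pm s * t)) atTop (𝓝 f₀)) (k1 : f₀ < Λ * n₀) (k2 : a < n₀) (T : ℝ) :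
    ∃ t ∈ K.deep (1 / 4), T ≤ pm s * t ∧ f t ≤ Λ * n t ∧ a ≤ n t := by
  obtain ⟨t, a1, a2, a3, a4⟩ := ((h2.eventually_lt (h1.const_mul Λ) k1).and
    ((h1.eventually_const_lt k2).and ((eventually_ge_atTop T).and
      (eventually_gt_atTop (|K.p.getD 0| + |K.q.getD 0| + 1))))).exists
  refine ⟨pm s * t, (mem_deep K).2 ?_, by cases s <;> simpa [pm] using a3, a1.le, a2.le⟩
  cases s
  · refine ⟨fun r k => by simp [Nk.Inf, Option.mem_def.1 k] at h, fun r k => ?_⟩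
    rw [Option.mem_def.1 k, Option.getD_some] at a4
    simp only [pm, Bool.false_eq_true, if_false]
    linarith [neg_abs_le r, abs_nonneg (K.p.getD 0)]
  · refine ⟨fun r k => ?_, fun r k => by simp [Nk.Inf, Option.mem_def.1 k] at h⟩
    rw [Option.mem_def.1 k, Option.getD_some] at a4
    simp only [pm, if_true]
    linarith [le_abs_self r, abs_nonneg (K.q.getD 0)]

theorem sm_rs {V : Type} [NormedAddCommGroup V] [NormedSpace ℝ V] {f : X.M → V} (r : ℝ)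
    (hf : Sm X.I f) : Sm X.I fun y => r • f y := (r • ContinuousLinearMap.id ℝ V).contMDiff.comp hf

theorem CB_rs {V : Type} [NormedAddCommGroup V] [NormedSpace ℝ V] {F : Pre X.I X.M (Option κ)}
    {k : ℕ} {f : X.M → V} {A : ℝ} (r : ℝ) (hf : Sm X.I f) (h : F.CB k f A) (h0 : 0 ≤ A) :
    F.CB k (fun y => r • f y) (|r| * A) :=
  CB_mono (CB_clm (r • ContinuousLinearMap.id ℝ V) hf h) (mul_le_mul_of_nonneg_right
    (ContinuousLinearMap.opNorm_le_bound _ (abs_nonneg r) fun v => (norm_smul r v).le) h0)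

section pc
variable {d : Dt κ lam ν} {N : Type} [Fintype N] {ty : N → d.𝓔} {P : Pc d X nc ty} (hP : P.OK)
  {q : d.W →₀ ℝ} {c : Sw.Cfg X.M κ ν} (hE : P.bg.EqOn (P.pt q) c univ) {η : ℝ} {k : ℕ}
  (hq : P.Small k η q)
include hP hE hq

theorem eC_le (x : X.M) : ‖P.bg.eC c x - P.p0.C c x‖ ≤ 2 * η := by
  obtain ⟨s, h1, h2⟩ := hq
  rw [(hE x trivial).2]
  change ‖P.p0.C c x + _ - _‖ ≤ _
  rw [add_sub_cancel_left]
  refine (norm_sum_le _ _).trans ((Finset.sum_le_sum (g := fun w => 2 * (|q w| * s w))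
    fun w hw => ?_).trans (by rw [← Finset.mul_sum]; linarith [show ∑ v ∈ q.support, |q v| * s v ≤ η from h1]))
  obtain ⟨a0, a1, -, -, a2⟩ := h2 w hw
  rw [norm_smul, mul_left_comm, two_mul]
  refine mul_le_mul_of_nonneg_left ((norm_add_le _ _).trans (add_le_add (CB_bound a1 x) ?_))
    (abs_nonneg _)
  have z : ∀ j (K : Nk (d.e (ty j)) P.bg), x ∉ K.dp 1 →
      ((d.yt w (ty j)).elim 0 fun T => K.ms T c x) = 0 := fun j K h =>
    Pb50.elim_zero fun T _ => by rw [Nk.ms, K.ext_zero _ h, smul_zero]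
  by_cases h : ∃ i, ∃ K ∈ P.nk i, x ∈ K.ψ.target
  · obtain ⟨i, K, hK, h⟩ := h
    rw [Pb50.sum_nk hP.toOK hK h _ z]
    have a3 := a2 i
    generalize d.yt w (ty i) = o at a3 ⊢
    rcases o with _ | T
    · simpa using a0
    rw [Option.elim_some, Nk.ms, Nd18.Nk.ext, smul_comm, norm_smul]
    exact (mul_le_of_le_one_left (norm_nonneg _) ((abs_of_nonneg Nd18.ct_mem.1).trans_le
      Nd18.ct_mem.2)).trans (CB_bound (a3 T rfl 0 k.zero_le _) _)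
  · rw [Finset.sum_eq_zero fun j _ => Pb50.elim_zero fun K hK =>
      z j K fun a => h ⟨j, K, hK, K.dp_sub one_pos a⟩, norm_zero]
    exact a0

theorem loc (hc : P.bg.Adm c) {O : Set X.M} (hO : IsOpen O)
    (h : ∀ x ∈ O, ∀ j, ∀ K ∈ P.nk j, K.χ x = 0) :
    ({ P.bg with w := 1 } : Bg X.I X.M κ lam ν nc).Adm ⟨c.a, fun x => √P.bg.w • c.Φ x⟩ ∧ ∀ x ∈ O,
      (({ P.bg with w := 1 } : Bg X.I X.M κ lam ν nc).eD ⟨c.a, fun x => √P.bg.w • c.Φ x⟩ x = 0 ∧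
        P.bg.eD c x = 0) ∧ ∀ w : List (Option κ), w.length ≤ k → ‖P.bg.F.Dw w
        (({ P.bg with w := 1 } : Bg X.I X.M κ lam ν nc).eC ⟨c.a, fun x => √P.bg.w • c.Φ x⟩) x‖ ≤ η := by
  refine ⟨⟨hc.sa, sm_rs _ hc.sΦ, hc.pa, fun x =>
    (map_smul _ _ _).trans (congrArg (_ • ·) (hc.pΦ x))⟩, fun x hx => ?_⟩
  have d : P.bg.eD c x = 0 := (hE x trivial).1.trans (Finset.sum_eq_zero fun j _ =>
    Pb50.elim_zero fun K hK => by rw [Nk.rad, h x hx j K hK, zero_mul, zero_smul])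
  refine ⟨⟨Eq.trans ?_ ((congrArg (√P.bg.w • ·) d).trans (smul_zero _)), d⟩, fun w hw => ?_⟩
  · change P.bg.eD ⟨c.a, fun x => √P.bg.w • c.Φ x⟩ x = _
    simp only [Bg.eD, Wz78.dir, map_smul, smul_add, Finset.smul_sum]
    exact congrArg (· + _) (Finset.sum_congr rfl fun i _ => (congrArg _
      (Wz78.nab_csmul (A := P.bg.W c) i _ (hc.sΦ x))).trans (map_smul _ _ _))
  obtain ⟨s, h1, h2⟩ := hq
  rw [Prm93.Dw_congr w (v := fun x => ∑ v ∈ q.support, q v • P.fo v x) ?_]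
  · exact (CB_sum q.support (fun v _ => sm_rs (q v) (hP.sf v)) (fun v hv =>
      CB_rs (q v) (hP.sf v) (h2 v hv).2.1 (h2 v hv).1) w hw x).trans h1
  filter_upwards [hO.mem_nhds hx] with y hy
  have z : ∀ j, ∀ K ∈ P.nk j, ∀ f : _ → F2 κ, K.ext f y = 0 := fun j K hK f => by
    rw [Nd18.Nk.ext, h y hy j K hK, zero_smul]
  refine Eq.trans ?_ ((hE y trivial).2.trans ?_)
  · have : P.bg.qd y (√P.bg.w • c.Φ y) (√P.bg.w • c.Φ y) = P.bg.w • P.bg.qd y (c.Φ y) (c.Φ y) := by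
      ext s
      simp only [Bg.qd, map_smul, real_inner_smul_left, real_inner_smul_right, PiLp.smul_apply,
        smul_eq_mul, ← mul_assoc √_, Real.mul_self_sqrt hP.bg.w]
      ring
    exact congrArg (fun z => P.bg.p2 y (P.bg.fc c y - z) - P.bg.om y) ((one_smul _ _).trans this)
  · change P.p0.C c y + _ = _
    rw [show P.p0.C c y = 0 from Finset.sum_eq_zero fun j _ => Pb50.elim_zero fun K hK => by
      rw [Nk.hl, z j K hK, smul_zero], zero_add]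
    refine Finset.sum_congr rfl fun v _ => ?_
    beta_reduce
    rw [Pc.tm, Finset.sum_eq_zero fun j _ => Pb50.elim_zero fun K hK => Pb50.elim_zero fun T _ => by
      rw [Nk.ms, z j K hK, smul_zero], add_zero]

end pc

variable (κ lam ν) in
/-- the leaves of the frequency estimate -/
structure LB : Prop extends LA κ lam ν where
  apr : Sw88.AprStmt κ lam ν
  neck : NeckStmt κ lam ν
  top : TopStmt κ lam ν
  pos : PosStmt κ lam ν
  asy : AsyStmt κ lam ν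
  nsi : NsiStmt κ lam ν
  c0v : C0vStmt κ lam ν
  big : BigStmt κ lam ν
  uc : ∀ (d : Dt κ lam ν) (N : Type) [Fintype N] (ty : N → d.𝓔) (X : Mf 4) (nc k : ℕ),
    UcStmt d ty X nc (Fin k → ℝ)
  tree : ∀ mk, TreeStmt κ lam ν mk

/-- solutions at a level -/
structure So {N : Type} [Fintype N] {e : N → En3 κ lam ν} (P : Pz X nc e) (β : BCs e)
    (c : Sw.Cfg X.M κ ν) (C η B : ℝ) : Prop where
  eC : ∀ x, ‖P.bg.eC c x - P.p0.C c x‖ ≤ η
  sup : ∀ x, √P.bg.w * ‖c.Φ x‖ ≤ B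
  ns : ∀ j, ∀ K ∈ P.nk j, NS K.p K.q C η (K.pb c)
  pos : ∀ j, ∀ K ∈ P.nk j, ∀ t ∈ K.J, 0 < nm (sl (K.pb c) t)
  asy : ∀ j, ∀ K ∈ P.nk j, ∀ s, K.Inf s → Crit (β j s) →
    Tendsto (fun t => nm (sl (K.pb c) (pm s * t))) atTop (𝓝 (nm (β j s))) ∧ ∀ r,
      Tendsto (fun t => fq r (sl (K.pb c) (pm s * t))) atTop (𝓝 (fq r (β j s)))

theorem le_sum_abs {I : Type} [Fintype I] (f : I → ℝ) (i : I) : f i ≤ ∑ j, |f j| :=
  (le_abs_self _).trans (Finset.single_le_sum (f := fun j => |f j|) (fun _ _ => abs_nonneg _)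
    (Finset.mem_univ i))

variable {G : Gr κ lam ν} {mk : Mk κ lam ν} {ρ : Ty κ lam ν → ℚ} (H : LB κ lam ν) (m : Mks G mk ρ)
  {𝓔 : Type} [Fintype 𝓔] {ty : 𝓔 → Ty κ lam ν} (hty : ∀ ε, (ty ε).1.OK mk)
include H m hty

theorem uni_ty : ∃ C : ℕ → ℝ, Ev ty fun l Γ => ∀ ε, Bg.Bd (X := (l.e ty ε).Z) (l.e ty ε).cyl C ∧
    (l.e ty ε).Nb (C 0) ∧ ∀ v ∈ Γ.V ε, |L v| ≤ C 0 := by
  choose B hB using fun ε => Sw88.exists_bd (X := (ty ε).en.Z) ((hty ε).ok (ty ε).2).cyl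
  choose n hn using fun ε => ev_lev H.toLA m (hty ε)
  have a : ∀ j ε, B ε j ≤ ∑ ε, |B ε j| + ∑ ε, |n ε| ∧ n ε ≤ ∑ ε, |B ε j| + ∑ ε, |n ε| := fun j ε =>
    ⟨le_add_of_le_of_nonneg (le_sum_abs (B · j) ε) (by positivity),
      le_add_of_nonneg_of_le (by positivity) (le_sum_abs n ε)⟩
  refine ⟨fun j => ∑ ε, |B ε j| + ∑ ε, |n ε|, (Ev.all fun ε => Ev.at ε (hn ε)).mono fun l Γ k ε =>
    ⟨Sw88.bd_mono (X := (ty ε).en.Z) (hB ε) (fun j => (a j ε).1) _,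
      Sw88.nb_mono (k ε).1 (a 0 ε).2, ?_⟩⟩
  rintro _ ⟨x, rfl⟩
  exact (congrArg abs (Sw88.L_lf Γ (hty ε) x.1 x.2)).trans_le (((k ε).2 x.2).1.trans (a 0 ε).2)

theorem bas (Sl : Type) [Fintype Sl] (Cb : ℕ → ℝ) (E : ℝ) : ∃ C : ℝ, ∃ B : ℝ → ℝ,
    Ev ty fun l _ => ∀ (W : Type) (yt : l.YT ty W) (X : Mf 4) (nc : ℕ)
      (P : Pc (l.dt ty yt) X nc (Prod.fst : 𝓔 × Sl → 𝓔)), P.OK → P.bg.Bd Cb → P.bg.w = l.w →
      ∀ η ≤ 1 / 2, ∀ q, P.Small 6 η q → ∀ β c, P.Sol β q c → P.ean c ≤ ENNReal.ofReal E →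
        So P.toPz β c C (2 * η) (B l.μ) := by
  obtain ⟨Cn, hn⟩ := uni_ty H m hty
  obtain ⟨C, hC⟩ := H.nsi fun j => max (Cn j) E
  choose B hB using fun μ => H.c0v.crude (𝓔 × Sl) (fun j => (ty j.1).en) Cb (μ * 3) 1
  refine ⟨C, B, (hn.and (ev_mu 0)).mono fun l Γ ⟨a, b⟩ W yt X nc P o bd w η h q s β c k E' => ?_⟩
  have ec := eC_le o k.2.eq s
  exact ⟨ec, w ▸ hB l.μ l.w Γ.w0 (fun _ => Flo2.bm l.μ) (fun j => l.S j.1) (fun j => l.ψ j.1)
    (fun _ r => mul_le_mul_of_nonneg_left (H.lvl.2.2.2.1 r).2 b) X nc P.toPz o.toOK bd w c k.1.1.1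
      fun x => ⟨(k.2.eq x trivial).1, (ec x).trans (by linarith)⟩,
    fun j => hC _ X nc _ _ P o η (by linarith) q s c k.1.1.1 k.2.eq
      (E'.trans (ENNReal.ofReal_le_ofReal (le_max_right _ _))) j
      (Sw88.bd_mono (X := (l.e ty j.1).Z) (a j.1).1 (fun _ => le_max_left _ _) _)
      (Sw88.nb_mono (a j.1).2.1 (le_max_left _ _)),
    H.pos X nc _ _ P.toPz o.toOK c k.1.1.1 (fun x => (k.2.eq x trivial).1) k.1.2,
    fun j K hK s i r => H.asy X nc _ _ K s _ c (o.en j) i k.1.1.1 r.1 (k.1.1.2 j s K hK i)⟩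

end Crest.Agent.X212.End23
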