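import Crest.Agent.X212.End23.Bas
import Crest.Agent.X212.Irr71.Main

/-!
# Row 212, lane END-S (helper23): FREQ, the reducible points are not approached
-/

set_option autoImplicit false
set_option linter.unusedSectionVars false
noncomputable section
open scoped Manifold ContDiff Topology InnerProductSpace
open MeasureTheory Set Function Filter

namespace Crest.Agent.X212.End23
open An Cyf70 Sw Sw.En3 Sob92
open Nd18 (Jv ct Dp)
open M (Mf pm)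
open Flo2 (Mk Gr Ty End Ev Lv Gc Plc rt)
open Sw88 (mem_deep nm_nonneg)
open Lvo97

variable {κ lam ν : Type} [Fintype κ] [Fintype lam] [Fintype ν] [DecidableEq ν]

section rt
variable {X : Mf 4} {nc : ℕ} {b : Bg X.I X.M κ lam ν nc} {ε ε' : Ty κ lam ν} (h : ε = ε')
  (K : Nk ε.en b) (c : Sw.Cfg X.M κ ν)

theorem rt_nm (s : ℝ) : nm (sl ((rt h K).pb c) s) = nm (sl (K.pb c) s) := by subst h; rfl
theorem rt_fq (r s : ℝ) : fq r (sl ((rt h K).pb c) s) = fq r (sl (K.pb c) s) := by subst h; rfl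

theorem rt_ns {μ w C η : ℝ} {S : Set ℝ} {ψ : ℝ → ℝ} (k : NS (e := lv ε'.en μ w S ψ) (rt h K).p
    (rt h K).q C η ((rt h K).pb c)) : NS (e := lv ε.en μ w S ψ) K.p K.q C η (K.pb c) := by
  subst h; exact k

theorem small_mono {d : Dt κ lam ν} {N : Type} [Fintype N] {ty : N → d.𝓔} {P : Pc d X nc ty} {k : ℕ}
    {η η' : ℝ} {q : d.W →₀ ℝ} (h : P.Small k η q) (l : η ≤ η') : P.Small k η' q :=
  h.imp fun _ a => ⟨a.1.trans l, a.2⟩

theorem vx_thin {N : Type} [Fintype N] {e : N → En3 κ lam ν} {P : Pz X nc e} {σ : N → Bool} {x}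
    (hx : x ∈ Vx P σ 1) (i : N) : ∀ K ∈ P.nk i, K.tm x ∉ K.deep 1 := fun K hK k => by
  by_cases o : P.Off i
  · exact Cut71.off_deep K le_rfl (o K hK) _ k
  have := hx i o K hK
  rw [mem_deep] at k
  revert this
  cases σ i <;> intro this
  · exact let ⟨r, a, b⟩ := sd_f.1 this; by linarith [k.1 r a]
  · exact let ⟨r, a, b⟩ := sd_t.1 this; by linarith [k.2 r a]

theorem sb_of {e : En3 κ lam ν} {A : e.ZC} {B : ℝ} (hw : 0 ≤ e.w) (h : ∀ x, √e.w * ‖A.Φ x‖ ≤ B)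
    (I : Set ℝ) : Sb A I B := fun x _ => (mul_le_mul_of_nonneg_right
  (Real.sqrt_le_sqrt (by linarith)) (norm_nonneg _)).trans (h x)

theorem start_sl {e : En3 κ lam ν} (he : e.OK) {v : e.YC} (hv : Crit v) {a Λ : ℝ}
    (h : e.b (nm v) ≤ a) (h' : 1 / 2 ≤ nm v) (k : a ^ 2 < Λ) : fq 0 v < Λ * nm v := by
  rw [crit_fq hv, sub_zero]
  exact mul_lt_mul_of_pos_right ((pow_le_pow_left₀ (he.b0 _) h 2).trans_lt k) (by linarith)

end rt

variable {G : Gr κ lam ν} {mk : Mk κ lam ν} {ρ : Ty κ lam ν → ℚ} (H : LB κ lam ν) (m : Mks G mk ρ)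
include H m

theorem starts {𝓔 : Type} [Fintype 𝓔] {ty : 𝓔 → Ty κ lam ν} (hty : ∀ ε, (ty ε).1.OK mk) (r : ℚ) :
    ∃ a : ℝ, Ev ty fun l Γ => ∀ ε, ∀ v ∈ Γ.V ε, G.d l ε v ≤ r →
      (l.e ty ε).b (nm v) ≤ a ∧ 1 / 2 ≤ nm v := by
  choose a h using fun ε => start H.toLA m (hty ε) r
  exact ⟨_, (Ev.all fun ε => Ev.at ε (h ε)).mono fun l Γ k ε v b c =>
    (k ε v b c).imp_left fun z => z.trans (le_sum_abs a ε)⟩

omit H m in
theorem fn_wall {g : Gc κ lam ν} (hg : g.OK) {t} {i : g.N} (h : Fn (g.P t) i) :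
    ∃ c, g.wl c = some i := by
  by_contra! k
  refine h.1 (hg.off i ?_ k t)
  by_contra n
  obtain ⟨K, hK⟩ := Option.ne_none_iff_exists'.1 n
  obtain ⟨s, a⟩ := hg.fam.ends i K hK
  exact h.fin s ((Sw88.inf_P hg t i s).2 ⟨K, hK, a⟩)

theorem frq (hB : Flo2.BndStmt G mk) {g : Gc κ lam ν} (hg : g.Gd mk) (hU : UcA κ lam ν g)
    (hp : (g.pin ≠ none ∧ ∀ t ∈ g.dom, Up (g.P t)) ∨
      (g.pin = none ∧ ∃ δ > 0, ∀ L ≥ 4, ∀ t ∈ g.dom, Nr (g.P t) L δ)) : g.Frq G mk := by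
  intro r 𝓔 _ ty Sl _ p hty
  obtain ⟨E, hE⟩ := hB.en g.toBs
  replace hE := hE g rfl hg 𝓔 ty Sl p hty
  generalize E * (1 + max 0 (-(G.dg g : ℝ))) = E at hE
  obtain ⟨C₁, B, h1⟩ := bas H m hty Sl g.C E
  obtain ⟨Kv, hv⟩ := H.c0v.vx g.N (fun i => (g.ty i).en) g.C 1
  obtain ⟨C, c1, c2, c3, c4, c5⟩ : ∃ C, C₁ ≤ C ∧ Kv ≤ C ∧ E ≤ C ∧ 1 ≤ C ∧ g.C 0 ≤ C :=
    ((eventually_ge_atTop _).and ((eventually_ge_atTop _).and ((eventually_ge_atTop _).and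
      ((eventually_ge_atTop _).and (eventually_ge_atTop _))))).exists
  obtain ⟨a, hs⟩ := starts H m hty r
  have kn := fun i => m.kn (ε := g.ty i) (hg.2 i)
  choose f f1 f2 using fun Λ M => ((neck_uni H.neck kn C Λ).and (eventually_ge_atTop M)).exists
  choose u hu using hU C
  let M : ℕ → ℝ := fun n => n.rec (f (a ^ 2 + 1) 1) fun _ x => f (max (u x) 1) x
  have mM : Monotone M := monotone_nat_of_le_succ fun n => f2 _ _
  obtain ⟨L, l4, hb⟩ : ∃ L ≥ (4 : ℝ), ∀ᶠ η in 𝓝[>] (0 : ℝ), ∀ c ≥ 0, ∀ B, ∀ᶠ w in 𝓝[>] (0 : ℝ),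
      ∀ (S : g.N → Set ℝ) (ψ : g.N → ℝ → ℝ), (∀ i, (lv (g.ty i).en c w (S i) (ψ i)).OK) →
      ∀ t ∈ g.dom, ∀ A, (g.P t).bg.Adm A → (∀ x, ‖((g.P t).re w (fun _ r => c * prf r) S ψ).bg.eC A x -
        (g.P t).p0.C A x‖ ≤ η) → (∀ x, √w * ‖A.Φ x‖ ≤ B) → (∀ i, ∀ K ∈ (g.P t).nk i,
          NS (e := lv (g.ty i).en c w (S i) (ψ i)) K.p K.q C η (K.pb A) ∧
            ∀ s ∈ K.J, 0 < nm (sl (K.pb A) s)) → (Up (g.P t) ∧ ∃ j, (g.P t).Inf j false) ∨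
        ((∀ j, ¬(g.P t).Inf j false) ∧ ENNReal.ofReal B <
          ∫⁻ x in Rt (g.P t) L, ‖A.Φ x‖ₑ ^ 2 ∂(g.P t).bg.F.μ) := by
    rcases hp with ⟨n, k⟩ | ⟨n, δ, h0, k⟩
    · obtain ⟨j, n⟩ := Option.ne_none_iff_exists'.1 n
      exact ⟨4, le_rfl, .of_forall fun _ _ _ _ => .of_forall fun _ _ _ _ t ht _ _ _ _ _ =>
        .inl ⟨k t ht, j, (Sw88.inf_P hg.1 t j _).2 ((hg.1.inn j).2 n)⟩⟩
    · obtain ⟨L, l4, η, e0, h⟩ := H.big g.N _ _ kn C δ h0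
      refine ⟨L, l4, ev_Ioc.2 ⟨η, e0, fun η' b c d B => (ev_Ioc.2 (h c d B)).mono
        fun w z S ψ o t ht A a1 a2 a3 a4 => ?_⟩⟩
      have i : ∀ j, ¬(g.P t).Inf j false := fun j y => by
        simpa [n] using (hg.1.inn j).1 ((Sw88.inf_P hg.1 t j _).1 y)
      exact .inr ⟨i, z S ψ o _ _ _ (hg.1.fam.ok t (Sw88.mem_Q hg.1 t)).toOK
        ((hg.1.bd t ht).2.trans (ENNReal.ofReal_le_ofReal c5)) (k L l4 t ht) i A a1
        (fun x => (a2 x).trans b.2) a3 fun i K y => ⟨(a4 i K y).1.mono le_rfl b.2, (a4 i K y).2⟩⟩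
  obtain ⟨η, ⟨e0, e1⟩, q0, q1, q2⟩ := ((ev_Ioc.2 ⟨1, one_pos, fun _ => id⟩).and
    ((f1 (a ^ 2 + 1) 1).and (((eventually_all_finite (finite_le_nat 2)).2
      fun n _ => f1 (max (u (M n)) 1) (M n)).and hb))).exists
  have M1 : 1 ≤ M 0 := f2 _ _
  refine (((hE.and h1).and hs).and (ev_of (M := M 3) fun c d =>
    (q0 c ((mM (Nat.zero_le 3)).trans d) (max (B c) 1)).and
      (((eventually_all_finite (finite_le_nat 2)).2 fun n (k : n ≤ 2) =>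
        q1 n k c ((mM (show n + 1 ≤ 3 by omega)).trans d) (max (B c) 1)).and
          ((q2 c (by linarith [mM (Nat.zero_le 3)]) (max (B c) 1)).and
            (.of_forall fun _ => show 0 ≤ c by linarith [mM (Nat.zero_le 3)]))))).mono ?_
  rintro l Γ ⟨⟨⟨⟨ηE, e2, hE⟩, h1⟩, hs⟩, q0, q1, q2, c0⟩
  obtain ⟨η₀, p0, hP⟩ := prop (κ := κ) (lam := lam) (ν := ν) g.N M (fun n => max (u (M n)) 1) l.μ
    (show 1 ≤ L by linarith)
  refine ⟨η₀, p0, min ηE (η / 2), by positivity, ?_⟩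
  rintro W yt τ hτ q hq β hβ hr ⟨⟨t, A⟩, y⟩ ⟨hy, ht⟩
  have ok := (lev κ lam ν g hg.1 𝓔 ty Sl p l W yt τ (fun ε => (Γ.ok ε).ok) Γ.w0 hτ).ok t trivial
  have o0 := (hg.1.fam.ok t (Sw88.mem_Q hg.1 t)).toOK
  have en := hE W yt τ hτ q (fun t => small_mono (hq t) (min_le_left _ _)) β hβ ⟨_, y⟩ ⟨hy, ht⟩
  have sm := small_mono (hq t) (min_le_right _ _)
  have so := h1 W yt _ _ _ ok (Sw88.bd_mono (hg.1.bd t ht).1 (fun _ => le_rfl) _) rfl _
    (by linarith) q sm β A hy.1 en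
  rw [mul_div_cancel₀ _ two_ne_zero] at so
  have ad : (g.P t).bg.Adm A := adm_re.1 hy.1.1.1.1
  have ol : ∀ i, (lv (g.ty i).en l.μ l.w (l.S (p.ι i).1) (l.ψ (p.ι i).1)).OK := fun i =>
    (congrArg (fun ε : Ty κ lam ν => (lv ε.en l.μ l.w (l.S (p.ι i).1) (l.ψ (p.ι i).1)).OK)
      (p.ty i)).mp (Γ.ok _).ok
  have sup : ∀ x, √l.w * ‖A.Φ x‖ ≤ max (B l.μ) 1 := fun x => le_max_of_le_left (so.sup x)
  have ns : ∀ i, ∀ K ∈ (g.P t).nk i, NS (e := lv (g.ty i).en l.μ l.w (l.S (p.ι i).1)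
      (l.ψ (p.ι i).1)) K.p K.q C η (K.pb A) ∧ ∀ s ∈ K.J, 0 < nm (sl (K.pb A) s) := fun i K k =>
    ⟨(rt_ns (p.ty i).symm K A (so.ns _ _ (lk_mem p l k))).mono c1 le_rfl, fun s b =>
      (so.pos _ _ (lk_mem p l k) s ((lk_J p l K).symm ▸ b)).trans_eq (rt_nm _ K A s)⟩
  have sb : ∀ i (K : Nk (g.ty i).en (g.P t).bg), Sb (e := lv (g.ty i).en l.μ l.w (l.S (p.ι i).1)
      (l.ψ (p.ι i).1)) (K.pb A) (Jv K.p K.q) (max (B l.μ) 1) := fun i K =>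
    sb_of Γ.w0.le (fun x => sup _) _
  have n0 := fun i K k => q0 i _ _ (ol i) _ _ _ (ns i K k).1 (sb i K) (ns i K k).2
  have asy : ∀ i, ∀ K ∈ (g.P t).nk i, ∀ s, K.Inf s → β (p.ι i) s ∈ Γ.V _ ∧ Gd (β (p.ι i) s) ∧
      Tendsto (fun x => nm (sl (K.pb A) (pm s * x))) atTop (𝓝 (nm (β (p.ι i) s))) ∧ ∀ r,
        Tendsto (fun x => fq r (sl (K.pb A) (pm s * x))) atTop (𝓝 (fq r (β (p.ι i) s))) :=
    fun i K k s b => by
      have v := hβ i s ((Sw88.inf_P hg.1 t i s).1 ⟨K, k, b⟩)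
      have d := (Γ.rs _).gd _ v
      have := so.asy _ _ (lk_mem p l k) s ((lk_inf ..).2 b) d.crit
      exact ⟨v, d, this.1.congr fun x => rt_nm _ K A _, fun r => (this.2 r).congr
        fun x => rt_fq _ K A r _⟩
  refine (all_lev p l (C := fun _ K => ∀ s ∈ K.deep 3, η₀ ≤ nm (sl (K.pb A) s))).2
    fun i K k s b => (hP _ _ _ (g.P t) A ⟨H.top, mM, M1, le_max_right _ _, c0, o0, ad,
      fun i j k a b c => ?_, fun i a b => ?_, fun i K k s b => (n0 i K k s b).2.2,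
      fun i K k b T => ?_, fun i K k b T => ?_, fun n _ σ b i c K k => ?_,
      fun n b i K k s c d => ?_⟩ ((q2 _ _ ol t ht A ad (fun x => Irr71.lev_p0C p l _ A x ▸ so.eC x)
        sup ns).imp_right fun z => ⟨z.1, (ENNReal.one_le_ofReal.2 (le_max_right _ _)).trans_lt z.2⟩)
      i K k s (lk_deep p l K 3 ▸ b)).trans_eq (rt_nm _ K A s).symm
  · obtain ⟨a', a⟩ := fn_wall hg.1 a
    obtain ⟨b', b⟩ := fn_wall hg.1 b
    obtain ⟨c', c⟩ := fn_wall hg.1 c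
    have : a' = b' ∨ a' = c' ∨ b' = c' := by
      have := hg.1.k2
      simp only [Fin.ext_iff]
      omega
    rcases this with rfl | rfl | rfl
    exacts [.inl (Option.some.inj (a.symm.trans b)), .inr (.inl (Option.some.inj (a.symm.trans c))),
      .inr (.inr (Option.some.inj (b.symm.trans c)))]
  · have := hg.1.cyl i ((hg.1.inn i).1 ((Sw88.inf_P hg.1 t i _).1 a))
    exact ((hg.1.out i).1 ((Sw88.inf_P hg.1 t i _).1 b)).elim this.1 this.2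
  · obtain ⟨v, d, a1, a2⟩ := asy i K k _ b
    have z := hs _ _ v (by
      rwa [(hg.1.inn i).1 ((Sw88.inf_P hg.1 t i _).1 ⟨K, k, b⟩)] at hr)
    obtain ⟨s, s1, s2, s3, s4⟩ := asy_sl b (n := fun x => nm (sl (K.pb A) x))
      (f := fun x => fq 0 (sl (K.pb A) x)) a1 (a2 0) (start_sl (Γ.ok _).ok d.crit z.1 z.2
        (lt_add_one _)) (show 1 / 4 < _ by linarith [z.2]) (-T)
    exact ⟨s, s1, by simpa [pm] using s2, (n0 i K k s s1).1 s3, s4⟩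
  · obtain ⟨v, d, a1, a2⟩ := asy i K k _ b
    obtain ⟨s, s1, s2, s3, -⟩ := asy_sl b (n := fun x => nm (sl (K.pb A) x))
      (f := fun x => fq _ (sl (K.pb A) x)) (Λ := a ^ 2 + 1) a1 (a2 ((l.e ty _).b (nm (β (p.ι i) true))))
      (by rw [crit_fq d.crit, sub_self, sq, zero_mul, zero_mul]
          exact mul_pos (by positivity) (nm_pos d)) (nm_pos d) T
    exact ⟨s, s1, by simpa [pm] using s2, (n0 i K k s s1).2.1 _ ((Γ.ok _).ok.b0 _) s3⟩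
  · have w1 : ({ (g.P t).bg with w := 1 } : Bg _ _ κ lam ν _) = (g.P t).bg := by
      rw [← show (g.P t).bg.w = 1 from K.hw]
    have vx := H.top.vx _ _ _ _ _ o0 σ
    have s7 : Vx (g.P t) σ (7 / 8) ⊆ Vx (g.P t) σ 1 := fun x y j z K k =>
      sd_mono (by norm_num) (y j z K k)
    obtain ⟨a1, a2⟩ := loc ok hy.1.2.eq sm hy.1.1.1.1 (vx 1 ⟨one_pos, le_rfl⟩).1 fun x y =>
      (all_lev p l (C := fun _ K => K.χ x = 0)).2 fun j K k => Cut71.χ_zero' _ (by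
        rw [lk_tm, lk_deep]; exact vx_thin y j K k)
    have a3 : (g.P t).bg.Adm ⟨A.a, fun x => √l.w • A.Φ x⟩ := w1 ▸ a1
    have a4 : ∀ x ∈ Vx (g.P t) σ 1, ((g.P t).bg.eD ⟨A.a, fun x => √l.w • A.Φ x⟩ x = 0 ∧
        (g.P t).bg.eD A x = 0) ∧ ∀ w : List (Option κ), w.length ≤ 6 → ‖(g.P t).bg.F.Dw w
          ((g.P t).bg.eC ⟨A.a, fun x => √l.w • A.Φ x⟩) x‖ ≤ η / 2 := fun x y =>
      ⟨(a2 x y).1, fun w z => (congrArg (fun b : Bg _ _ κ lam ν _ => ‖(g.P t).bg.F.Dw w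
        (b.eC ⟨A.a, fun x => √l.w • A.Φ x⟩) x‖) w1).symm.trans_le ((a2 x y).2 w z)⟩
    have fc : ∫⁻ x in Vx (g.P t) σ (7 / 8), ‖(g.P t).bg.fc A x‖ₑ ^ 2 ∂(g.P t).bg.F.μ ≤
        ENNReal.ofReal C := by
      refine le_trans ?_ ((le_self_add.trans en).trans (ENNReal.ofReal_le_ofReal c3))
      refine (lintegral_mono_set fun x y => ?_).trans (lintegral_mono fun x => ?_)
      · refine (lev_thick p l 3).symm ▸ fun j K k z => vx_thin (s7 y) j K k ?_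
        exact Sw88.deep_near K ((Cut71.mem_img K fun _ => deep_J (by norm_num)).1 z) (by norm_num)
      · rw [← ofReal_norm, ← ENNReal.ofReal_pow (norm_nonneg _)]
        refine ENNReal.ofReal_le_ofReal (le_add_of_le_of_nonneg (le_add_of_nonneg_right ?_) ?_)
        · exact mul_nonneg Γ.w0.le (Finset.sum_nonneg fun _ _ => sq_nonneg _)
        · positivity
    obtain ⟨s, s1, s2, s3, s4⟩ := hu (M n) t ht σ ⟨A.a, fun x => √l.w • A.Φ x⟩ A.Φ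
      ⟨⟨fun j => (a3.sa j).contMDiffOn, a3.sΦ.contMDiffOn, fun j x _ => a3.pa j x, fun x _ => a3.pΦ x⟩,
        ⟨fun j => (ad.sa j).contMDiffOn, ad.sΦ.contMDiffOn, fun j x _ => ad.pa j x, fun x _ => ad.pΦ x⟩,
        fun x y => (a4 x (s7 y)).1, fun w z x y => ((a4 x (s7 y)).2 w z).trans (by linarith),
        fun x y => (hv _ _ _ o0 (hg.1.bd t ht).1 K.hw σ _ a3 (fun x y => ⟨(a4 x y).1.1,
          ((a4 x y).2 [] (Nat.zero_le _)).trans (by linarith)⟩) x y).trans c2, fc⟩ b i c K k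
    have z := le_max_left (u (M n)) 1
    exact ⟨s, s1, s2.trans (mul_le_mul_of_nonneg_right z (nm_nonneg _)),
      s3.trans (mul_le_mul_of_nonneg_right z (nm_nonneg _)),
      s4.trans (mul_le_mul_of_nonneg_right z (ms_nonneg _ _))⟩
  · have := q1 n b i _ _ (ol i) _ _ _ (ns i K k).1 (sb i K) (ns i K k).2 s c
    exact ⟨this.1 d, this.2.1 0 le_rfl d⟩

theorem frq_cap (hB : Flo2.BndStmt G mk) {g : Gc κ lam ν} (hg : g.Gd mk) (n : g.pin ≠ none)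
    (h : ∀ c, g.wl c = none) : g.Frq G mk := by
  refine frq H m hB hg (H.uc (Flo2.d0 fun i => (g.ty i).en) g.N id g.X g.nc g.k g.s g.𝓕 hg.1.fam
    g.dom (fun t _ => Sw88.mem_Q hg.1 t) ?_) (.inl ⟨n, fun t _ i K k a b r c d => ?_⟩)
  · rw [show g.dom = Icc 0 1 from Set.ext fun t => ⟨fun a => ⟨fun c => (a c).1, fun c => (a c).2 (h c)⟩,
      fun a c => ⟨a.1 c, fun _ => a.2 c⟩⟩]
    exact isCompact_Icc
  · have o : ¬(g.P t).Off i := fun o => by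
      obtain ⟨a', h1, h2⟩ := o K k
      cases h1.symm.trans b
      cases h2.symm.trans c
      linarith
    obtain ⟨c', z⟩ := fn_wall hg.1 (t := t) (i := i) ⟨o, fun K' k' s => by
      cases k.symm.trans k'
      cases s <;> simp [Nk.Inf, Option.mem_def.1 b, Option.mem_def.1 c]⟩
    simp [h] at z

theorem frq_cyl (r : ℚ) (𝓔 : Type) [Fintype 𝓔] (ty : 𝓔 → Ty κ lam ν) (Sl : Type) [Fintype Sl]
    (hty : ∀ ε, (ty ε).1.OK mk) : Ev ty fun l Γ => ∃ η₀ > 0, ∃ η > 0, ∀ (W : Type) (yt : l.YT ty W)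
      (i : 𝓔 × Sl) (T : Type) [NormedAddCommGroup T] [NormedSpace ℝ T] [FiniteDimensional ℝ T]
      (nr : ℕ) β q, (∀ s, β i s ∈ Γ.V i.1) → G.d l i.1 (β i false) ≤ r →
      ((l.dt ty yt).cc Prod.fst i T nr β).Sm η q → ∀ y, ((l.dt ty yt).cc Prod.fst i T nr β).Sol q y →
        ((l.dt ty yt).cc Prod.fst i T nr β).Low η₀ y := by
  obtain ⟨Cn, hn⟩ := uni_ty H m hty
  obtain ⟨δ, h0, C', hA⟩ := H.apr fun j => max (Cn j) 1
  obtain ⟨C, B, h1⟩ := bas H m hty Sl (fun j => max (Cn j) 1)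
    ((|(|C'| * (1 + 2 * Fintype.card (𝓔 × Sl) * max (Cn 0) 1))| + |0|) / δ * (1 + 0))
  obtain ⟨a, hs⟩ := starts H m hty r
  obtain ⟨M, q0, M1⟩ := ((neck_uni H.neck (fun ε => m.kn (hty ε)) C (a ^ 2 + 1)).and
    (eventually_ge_atTop 1)).exists
  obtain ⟨η, ⟨e0, e1⟩, q0⟩ := ((ev_Ioc.2 ⟨1, one_pos, fun _ => id⟩).and q0).exists
  refine (((hn.and h1).and hs).and (ev_of fun c d => q0 c d (B c))).mono ?_
  rintro l Γ ⟨⟨⟨hn, h1⟩, hs⟩, q0⟩
  obtain ⟨η', e2, C'', hA⟩ := hA 𝓔 (l.e ty) (𝓔 × Sl) Prod.fst (fun i => ⟨_, Γ.ok i.1⟩) l.w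
  refine ⟨1 / 4 / M, by positivity, min η' (η / 2), by positivity,
    fun W yt i T _ _ _ nr β q hβ hr hq y hy j K k t _ => ?_⟩
  obtain rfl := Sw21.cs_eq k
  obtain rfl := Sw21.mem_cs.1 k
  have ok := (Sw21.cf_ok (d := l.dt ty yt) (ty := Prod.fst) (i := j) (T := T)
    (fun j => (Γ.ok j.1).ok) Γ.w0).ok y.1.1 trivial
  have bd := Sw88.bd_mono (X := (l.e ty j.1).Z) (hn j.1).1 (fun n => le_max_left _ (1 : ℝ)) l.w
  have gd := fun s => (Γ.rs _).gd _ (hβ s)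
  have un : Sw88.Uni ((l.dt ty yt).cs Prod.fst j) fun j => max (Cn j) 1 := by
    refine ⟨bd, le_max_of_le_right (Nat.cast_le_one.2
      ((ncard_le_ncard (t := {j}) fun j hj => ?_).trans (ncard_singleton _).le)),
      fun i _ => Sw88.nb_mono (hn _).2.1 (le_max_left _ _), Γ.w0, (hn j.1).2.1.w1, ?_⟩
    · exact Sw21.cs_eq (Option.get_mem hj)
    · rw [show ((l.dt ty yt).cs Prod.fst j).thick 3 = ∅ from eq_empty_of_forall_notMem fun x hx =>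
        hx j _ (Sw21.mem_cs.2 rfl) ⟨x, ⟨trivial, nofun, nofun⟩, rfl⟩, measure_empty]
      exact zero_le
  obtain ⟨-, -, a3, a4⟩ := hA W yt _ _ _ ok un rfl q (Sw88.small_zero (small_mono (hq _ trivial)
    (min_le_left _ _))) β y.1.2 (fun i s k => by
      obtain rfl := Sw21.cs_inf.1 k
      exact (gd s).crit) y.2.2 hy.1.2.eq
  have so := h1 W yt _ _ _ ok bd rfl _ (by linarith) q (small_mono (hq _ trivial) (min_le_right _ _))
    β _ hy.1 (Sw88.en_le h0 a3 le_rfl (a4.trans ?_) (le_of_eq ?_))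
  · rw [mul_div_cancel₀ _ two_ne_zero] at so
    obtain ⟨a1, a2⟩ := so.asy j _ k false rfl (gd _).crit
    have z := hs _ _ (hβ false) hr
    obtain ⟨s, s1, s2, s3, s4⟩ := asy_sl (K := (l.e ty j.1).nk) (s := false) rfl
      (n := fun x => nm (sl ((l.e ty j.1).nk.pb y.1.2) x))
      (f := fun x => fq 0 (sl ((l.e ty j.1).nk.pb y.1.2) x)) a1 (a2 0)
      (start_sl (Γ.ok _).ok (gd _).crit z.1 z.2 (lt_add_one _)) (show 1 / 4 < _ by linarith [z.2]) (-t)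
    have l' : s ≤ t := by simpa [pm] using s2
    rw [div_le_iff₀' (by positivity)]
    exact (le_min s4 (by norm_num)).trans (((q0 j.1 _ _ (Γ.ok _).ok _ _ _ (so.ns j _ k)
      (sb_of Γ.w0.le so.sup _) (so.pos j _ k) s s1).1 s3).low s ⟨s1, le_refl s⟩ t
        ⟨⟨nofun, nofun⟩, l'⟩ l')
  · have h0 : ∀ a : ℝ, |a| ≤ 2 * Fintype.card (𝓔 × Sl) * max (Cn 0) 1 → C' * (1 + a) ≤
        |C'| * (1 + 2 * Fintype.card (𝓔 × Sl) * max (Cn 0) 1) := fun a k =>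
      (le_abs_self _).trans ((abs_mul _ _).trans_le (mul_le_mul_of_nonneg_left
        ((abs_add_le _ _).trans (by rw [abs_one]; linarith)) (abs_nonneg _)))
    refine h0 _ (Sw88.sum_ite_le (by positivity) fun i s k => ?_)
    obtain rfl := Sw21.cs_inf.1 k
    rw [abs_abs]
    exact le_max_of_le_left ((hn _).2.2 _ (hβ s))
  · rw [zero_mul, neg_eq_zero]
    exact integral_eq_zero_of_ae (.of_forall (Mp86.En.kd0 (Γ.ok j.1).ok))

/-- **FREQ** -/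
theorem freq (hB : Flo2.BndStmt G mk) : Flo2.FreqStmt G mk := by
  refine ⟨fun g T w i => frq H m hB ⟨T.nd.ok, by cases T; exact w.1⟩ ((H.tree mk).uc g T w) ?_,
    fun _ => frq_cap H m hB, frq_cyl H m⟩
  by_cases n : g.pin = none
  exacts [.inr ⟨n, (H.tree mk).nr g T w i n⟩, .inl ⟨n, (H.tree mk).up g T w⟩]

end Crest.Agent.X212.End23
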