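import Crest.Agent.X212.End23.Cor
import Crest.Agent.X212.Sw88.Gd
import Crest.Agent.X212.Ix82.Mu

/-!
# Row 212, lane END-S (helper23): the marks of the ends

`TorX`, `DeadX` : the full marks.  `Mks G mk ρ` : what the lane uses of the marks and of the grading.
-/

set_option autoImplicit false
set_option linter.unusedSectionVars false
noncomputable section
open scoped Manifold ContDiff Topology InnerProductSpace
open MeasureTheory Set Function Filter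

namespace Crest.Agent.X212.End23
open An Cyf70 Sw Sw.En3
open Flo2 (Gc Tr Mk Gr Ty End)

variable {κ lam ν : Type} [Fintype κ] [Fintype lam] [Fintype ν] [DecidableEq ν]

/-- the full mark of `S² × S¹` with the torsion class -/
structure TorX (e : En3 κ lam ν) (u : e.Y.M → ℂ) : Prop where
  tor : Tor e u
  lk : e.Lk
  wp : Sw88.Wp e 0
  gr : ∃ δ > 0, ∃ l, Sw88.Gr e δ l

/-- the full mark of an end without critical points -/
structure DeadX (e : En3 κ lam ν) : Prop where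
  dead : Dead e
  wp : Sw88.Wp e 0
  gr : ∃ δ > 0, ∀ v : e.YC, e.cyl.Adm (fz v) → v.Φ = 0 → δ ≤ gn v

open Classical in
/-- the lower bound of the degrees -/
def lo' (e : En3 κ lam ν) : ℤ := if h : ∃ M : (lf e).Gen, Mo M then lo h.choose else 0

/-- the shift between `mu` and `gd` -/
def sh0 (e : En3 κ lam ν) : ℤ := sfE e (rf (th e)) (e.aH (e.z0 0))

/-- what is used of the marks and of the grading -/
structure Mks (G : Gr κ lam ν) (mk : Mk κ lam ν) (ρ : Ty κ lam ν → ℚ) : Prop where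
  qhs : ∀ e, mk.qhs e → ∀ c, Qhs (e.en c)
  tor : ∀ e, mk.tor e → ∀ c, TorX (e.en c) e.u
  dead : ∀ e, mk.dead e → ∀ c, DeadX (e.en c)
  psc : ∀ e, mk.psc e → ∀ c, NoOld (e.en c)
  sph : ∀ e, mk.sph e → mk.psc e ∧ ∀ c, ρ ⟨e, c⟩ = 0
  lw : ∀ ε, mk.lw ε ≤ ρ ε + lo' ε.en
  gr : ∀ ε : Ty κ lam ν, ε.1.OK mk → ε.1.kd ≠ .dead → ∀ w b S ψ, (ε.en.re w b S ψ).OK → 0 < w →
    ∀ v : (ε.en.re w b S ψ).YC, Crit v → Nd v → (∃ y, v.Φ y ≠ 0) →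
      G.gr ε w b S ψ v = ρ ε + mu v ∧ ∀ v', Eqv v v' → G.gr ε w b S ψ v' = G.gr ε w b S ψ v

variable (κ lam ν)

/-- MK-GR: the grading `gd + wt` -/
def GrStmt : Prop := ∀ e : En3 κ lam ν, e.OK → (Qhs e ∨ ∃ u, TorX e u) → ∀ w b S ψ,
  (e.re w b S ψ).OK → 0 < w → ∀ v : (e.re w b S ψ).YC, Crit v → Nd v → (∃ y, v.Φ y ≠ 0) →
    gd v = sh0 e + mu v ∧ ∀ v', Eqv v v' → gd v' = gd v

/-- MK-GEN: the marks exist -/
structure GenStmt : Prop where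
  /-- rational homology spheres (`GenQStmt`), also with positive scalar curvature -/
  qp : ∀ e : En3 κ lam ν, e.OK → e.H1 → e.om = 0 → e.f = 0 → e.h = 0 → Psc e → ∀ k, ∀ ε > 0,
    ∃ h, (wh e 0 h).OK ∧ e.D.F.CB k h ε ∧ Qhs (wh e 0 h) ∧ NoOld (wh e 0 h)
  tor : ∀ (e : En3 κ lam ν) u, e.OK → e.w = 1 → e.b = 0 → Lg e u → per e u ≠ 0 → Psc e → e.om = 0 →
    e.f = 0 → (e.Clo fun k y => e.ζ y (none, some k)) → (∃ θ : e.YC, Red θ) → ∀ k, ∀ ε > 0,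
    ∃ f h, (wh e f h).OK ∧ e.D.F.CB k h ε ∧ (∀ j ≤ k, ∀ r, |iteratedDeriv j f r| ≤ ε) ∧
      TorX (wh e f h) u
  dead : ∀ e : En3 κ lam ν, e.OK → e.w = 1 → e.b = 0 → Psc e → e.om = 0 → e.f = 0 → e.h = 0 →
    (∀ θ : e.YC, ¬Red θ) → DeadX e

variable {κ lam ν}

theorem Mks.mkP {G : Gr κ lam ν} {mk : Mk κ lam ν} {ρ : Ty κ lam ν → ℚ} (h : Mks G mk ρ) :
    (∀ ε : Ty κ lam ν, ε.1.OK mk → ε.1.kd = .tor →
      Sw88.Wp ε.en 0 ∧ ∃ δ > 0, ∃ l, Sw88.Gr ε.en δ l) ∧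
    ∀ ε : Ty κ lam ν, ε.1.OK mk → ε.1.kd = .dead → Sw88.Wp ε.en 0 ∧
      ∃ δ > 0, ∀ v : ε.en.YC, ε.en.cyl.Adm (fz v) → v.Φ = 0 → δ ≤ gn v :=
  ⟨fun ε a b => let k := h.tor _ (a.tor b).1 ε.2; ⟨k.wp, k.gr⟩,
    fun ε a b => let k := h.dead _ (a.dead b).1 ε.2; ⟨k.wp, k.gr⟩⟩

theorem Mks.kn {G : Gr κ lam ν} {mk : Mk κ lam ν} {ρ : Ty κ lam ν → ℚ} (h : Mks G mk ρ)
    {ε : Ty κ lam ν} (a : ε.1.OK mk) : Kn ε.en ε.1.u := by
  refine ⟨a.ok _, ⟨a.u, a.lg⟩, ?_⟩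
  rcases k : ε.1.kd with _ | _ | _
  · exact .inl (h.qhs _ (a.qhs k).1 _)
  · exact .inr (.inl (h.tor _ (a.tor k).1 _).tor)
  · exact .inr (.inr (h.dead _ (a.dead k).1 _).dead)

end Crest.Agent.X212.End23
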