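import Crest.Agent.X212.End23.Crt
import Crest.Agent.X212.Lw78.Ops

/-!
# Row 212, lane END-S (helper23): the frequency on a neck

`NS` : solutions on a neck with bounds that do not depend on the level.  `Fw`, `Bw` : control of the
spinor forwards and backwards.  `Hd` : Hodge decomposition; `ht` : the comparison connection.
-/

set_option autoImplicit false
set_option linter.unusedSectionVars false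
noncomputable section
open scoped Manifold ContDiff Topology InnerProductSpace
open MeasureTheory Set Function Filter

namespace Crest.Agent.X212.End23
open An Cyf70 Sw Sw.En3
open Nd18 (Jv ct)

variable {κ lam ν : Type} [Fintype κ] [Fintype lam] [Fintype ν] [DecidableEq ν] {e : En3 κ lam ν}

/-- the times at depth more than `d` (`= Nk.deep`) -/
abbrev Jd (p q : Option ℝ) (d : ℝ) : Set ℝ := Jv (p.map (· + d)) (q.map (· - d))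

/-- the remaining term of the curvature equation -/
def rm (p q : Option ℝ) (A : e.ZC) (x : e.Y.M × ℝ) : F2 κ :=
  e.cyl.eC A x + (ct p q 1 x.2 * deriv e.f (hol (sl A x.2))) • e.ζ x.1

/-- the energy density over the window of radius `1/8` -/
def ew (A : e.ZC) (s : ℝ) : ENNReal := ∫⁻ x in univ ×ˢ Ioo (s - 1 / 8) (s + 1 / 8),
  ENNReal.ofReal (Bg.ed (X := e.Z) e.cyl A x) ∂e.D.Z.μ

/-- solutions on a neck -/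
structure NS (p q : Option ℝ) (C η : ℝ) (A : e.ZC) : Prop where
  len : ∀ a ∈ p, ∀ b ∈ q, a + 2 ≤ b
  adm : e.cyl.AdmOn A (univ ×ˢ Jv p q)
  eD : ∀ x ∈ univ ×ˢ Jv p q,
    e.cyl.eD A x = (ct p q 1 x.2 * e.b (nm (sl A x.2))) • e.m.ρ none x.1 (A.Φ x)
  τ : ∀ w : List κ, w.length ≤ 2 → ∀ x ∈ univ ×ˢ Jv p q,
    ‖e.D.Z.Dw (w.map some) (rm p q A) x‖ ≤ η
  en : en A (Jd p q 2) ≤ ENNReal.ofReal C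
  ed : ∀ s, Ioo (s - 1 / 8) (s + 1 / 8) ⊆ Jv p q → ew A s ≤ ENNReal.ofReal C

/-- a bound of the true spinor -/
def Sb (A : e.ZC) (I : Set ℝ) (C : ℝ) : Prop := ∀ x ∈ univ ×ˢ I, dl e * ‖A.Φ x‖ ≤ C

/-- control forwards -/
structure Fw (M : ℝ) (A : e.ZC) (I : Set ℝ) : Prop where
  low : ∀ s ∈ I, ∀ t ∈ I, s ≤ t → min (nm (sl A s)) (1 / 2) ≤ M * nm (sl A t)
  sh : ∀ s ∈ I, ∀ t ∈ I, s ≤ t → t ≤ s + 1 → nm (sl A s) ≤ M * nm (sl A t)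
  fr : ∀ t ∈ I, ∀ β ≥ 0, fq β (sl A t) ≤ nm (sl A t) → β ≤ M

/-- control backwards -/
structure Bw (p q : Option ℝ) (M c : ℝ) (A : e.ZC) (I : Set ℝ) : Prop where
  sh : ∀ s ∈ I, ∀ t ∈ I, s ≤ t → t ≤ s + 1 → (∀ r ∈ Icc s t, ct p q 1 r = 0) →
    nm (sl A t) ≤ M * nm (sl A s)
  gro : ∀ s ∈ I, ∀ t ∈ I, s ≤ t →
    nm (sl A t) ≤ Real.exp ((6 * c + M) * (t - s + 1)) * nm (sl A s)

variable (e)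

/-- the three kinds of ends -/
def Kn (u : e.Y.M → ℂ) : Prop := e.OK ∧ Lg e u ∧ (Qhs e ∨ Tor e u ∨ Dead e)

/-- smooth one-forms -/
abbrev Fo (a : κ → e.Y.M → ℝ) : Prop := e.cyl.Adm (fz (⟨a, 0⟩ : e.YC))

/-- the `H^k` norm of a one-form -/
def n1 (k : ℕ) (a : κ → e.Y.M → ℝ) : ℝ := ∑ i, e.D.F.nrm k (a i)

/-- the differential of a function -/
def d0 (χ : e.Y.M → ℝ) (k : κ) (y : e.Y.M) : ℝ := e.D.F.D k χ y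

/-- a Hodge decomposition `a = d (G a) + s a • η + Π a` -/
structure Hd (u : e.Y.M → ℂ) : Type where
  G : (κ → e.Y.M → ℝ) →ₗ[ℝ] e.Y.M → ℝ
  s : (κ → e.Y.M → ℝ) →ₗ[ℝ] ℝ
  η : κ → e.Y.M → ℝ
  K : ℝ
  K0 : 0 ≤ K
  cl : e.Clo η
  lg : (∃ χ, Sm e.Y.I χ ∧ η = lg e u - d0 e χ) ∧ (η = 0 ∧ s = 0 ∨ s η = 1)
  sm : ∀ a, Fo e a → Sm e.Y.I (G a)
  ex : ∀ χ, Sm e.Y.I χ → s (d0 e χ) = 0 ∧ ∃ r : ℝ, ∀ y, G (d0 e χ) y = χ y + r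
  le : ∀ a, Fo e a → e.D.F.nrm 1 (G a) ≤ K * n1 e 0 a ∧ |s a| ≤ K * n1 e 0 a ∧
    n1 e 0 (a - d0 e (G a) - s a • η) ≤ K * n1 e 0 a ∧
    n1 e 1 (a - d0 e (G a) - s a • η) ≤ K * e.D.F.nrm 0 (Lw78.da e.D.F a)

variable {e} {u : e.Y.M → ℂ} (H : Hd e u) (a₀ : κ → e.Y.M → ℝ) (σ : ℝ → ℝ) {w : ℝ} {b : ℝ → ℝ}
  {S : Set ℝ} {ψ : ℝ → ℝ}

/-- the comparison connection -/
def ht (v : (e.re w b S ψ).YC) : (e.re w b S ψ).YC :=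
  ⟨a₀ + d0 e (H.G (v.a - a₀)) + σ (H.s (v.a - a₀)) • H.η, v.Φ⟩

/-- the frequency -/
def fN (v : (e.re w b S ψ).YC) : ℝ :=
  (∫ y, ⟪dr (ht H a₀ σ v) y, v.Φ y⟫_ℝ ∂e.D.F.μ) / nm v

/-- the variance -/
def fx (v : (e.re w b S ψ).YC) : ℝ := √(fq (fN H a₀ σ v) (ht H a₀ σ v) / nm v)

/-- the defect at the time `t` -/
def kp (A : (e.re w b S ψ).ZC) (t : ℝ) : ℝ :=
  (∫ y, ‖e.cyl.fc A (y, t) - e.cyl.fc (fz (⟨a₀, 0⟩ : e.YC)) (y, 0)‖ ^ 2 ∂e.D.F.μ) +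
    (H.s ((sl A t).a - a₀) - σ (H.s ((sl A t).a - a₀))) ^ 2

/-- admissible reparametrisations -/
structure Sg (σ : ℝ → ℝ) (K : ℝ) : Prop where
  sm : ContDiff ℝ ∞ σ
  d : ∀ r, |deriv σ r| ≤ K
  id : ∀ r, |r - σ r| ≤ K

/-- the scalar inequalities -/
structure Sc (I Sp : Set ℝ) (C ε : ℝ) (l N x β r : ℝ → ℝ) : Prop where
  der : ∀ t ∈ I, ∃ l' N', HasDerivAt l l' t ∧ HasDerivAt N N' t ∧
    N' ≤ -x t ^ 2 / 2 + (ε + r t) * (1 + |N t|) ∧ |l' + 2 * N t - 2 * β t| ≤ C * √(1 + x t + |N t|)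
  x0 : ∀ t ∈ I, 0 ≤ x t
  r0 : ∀ t ∈ I, 0 ≤ r t
  gap : ∀ t ∈ I, 1 ≤ r t ∨ ∀ δ ≥ 0, (∀ l ∈ Sp, δ ≤ |N t - l|) → δ ≤ x t

/-- EN-FRQ: barriers -/
def FrqStmt : Prop := ∀ Sp : Set ℝ, (∀ R, (Sp ∩ Icc (-R) R).Finite) → ∀ Λ C : ℝ, ∃ M ≥ (1 : ℝ),
  ∃ ε > 0, ∀ (a b : ℝ) (l N x β r : ℝ → ℝ), Sc (Icc a b) Sp C ε l N x β r →
    IntegrableOn r (Icc a b) → ∫ t in Icc a b, r t ≤ C → ContinuousOn β (Icc a b) →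
    (N a ≤ Λ → ∀ s t, a ≤ s → s ≤ t → t ≤ b →
      N t ≤ M ∧ (∫ τ in s..t, (2 * β τ - M)) - M ≤ l t - l s) ∧
    (-Λ ≤ N b → ∀ s t, a ≤ s → s ≤ t → t ≤ b →
      -M ≤ N s ∧ l t - l s ≤ (∫ τ in s..t, (2 * β τ + M)) + M)

variable (κ lam ν)

/-- EN-HDG -/
def HdgStmt : Prop := ∀ (e : En3 κ lam ν) u, e.OK → Lg e u → Nonempty (Hd e u)

/-- EN-MUL: multiplication, uniformly on connections of fixed curvature -/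
def MulStmt : Prop := ∀ e : En3 κ lam ν, e.OK → ∀ B : ℝ, ∃ K : ℝ, ∀ v : e.YC, e.cyl.Adm (fz v) →
  (∀ y, ‖e.cyl.fc (fz v) (y, 0)‖ ≤ B) → ∀ g : e.Y.M → ℝ, Sm e.Y.I g →
    ∫ y, ‖g y • v.Φ y‖ ^ 2 ∂e.D.F.μ ≤ K * e.D.F.nrm 1 g ^ 2 * (√(nm v) * (√(nm v) + √(fq 0 v)))

/-- EN-RAY: the Rayleigh quotient (from MUL) -/
def RayStmt : Prop := ∀ (e : En3 κ lam ν) u, e.OK → ∀ (H : Hd e u) a₀ σ K₀, Fo e a₀ → Sg σ K₀ →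
  ∃ K ≥ (0 : ℝ), ∀ w b S ψ, (e.re w b S ψ).OK → ∀ (A : (e.re w b S ψ).ZC) (I : Set ℝ), IsOpen I →
    (e.re w b S ψ).cyl.AdmOn A (univ ×ˢ I) → ∀ t ∈ I, 0 < nm (sl A t) →
    (∀ β, (fN H a₀ σ (sl A t) - β) ^ 2 + fx H a₀ σ (sl A t) ^ 2 ≤ 2 * fq β (sl A t) / nm (sl A t) +
      K * kp H a₀ σ A t * (1 + fx H a₀ σ (sl A t) + |fN H a₀ σ (sl A t)|)) ∧
    ∀ β : ℝ, (∀ y, (e.re w b S ψ).cyl.eD A (y, t) = β • e.m.ρ none y (A.Φ (y, t))) →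
      ∃ l' N', HasDerivAt (fun s => Real.log (nm (sl A s))) l' t ∧
        HasDerivAt (fun s => fN H a₀ σ (sl A s)) N' t ∧
        N' ≤ -fx H a₀ σ (sl A t) ^ 2 / 2 + K * kp H a₀ σ A t * (1 + |fN H a₀ σ (sl A t)|) +
          (K * kp H a₀ σ A t) ^ 2 + K * |deriv σ (H.s ((sl A t).a - a₀))| * √(kp H a₀ σ A t) ∧
        |l' + 2 * fN H a₀ σ (sl A t) - 2 * β| ≤
          √(K * kp H a₀ σ A t * (1 + fx H a₀ σ (sl A t) + |fN H a₀ σ (sl A t)|))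

/-- EN-MORSE: near the reducible points the gradient bounds the spinor -/
def MorseStmt : Prop := ∀ (e : En3 κ lam ν) u, Kn e u → ∀ C : ℝ, ∃ ρ > 0, ∃ K : ℝ,
  ∀ v : (lf e).YC, (lf e).cyl.Adm (fz v) → (∀ y, ‖v.Φ y‖ ≤ C) → nm v ≤ ρ →
    nm v ≤ K * gn v ∧ (Dead e → 1 ≤ K * gn v)

/-- EN-SLC: slices with a small spinor (from MORSE, GAP, NB) -/
def SlcStmt : Prop := ∀ (e : En3 κ lam ν) u, Kn e u → ∀ H : Hd e u, ∃ a₀ σ K₀, ∃ Sp : Set ℝ,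
  Fo e a₀ ∧ Sg σ K₀ ∧ (∀ R, (Sp ∩ Icc (-R) R).Finite) ∧ ∀ C : ℝ, ∃ ρ > 0, ∃ K ≥ (0 : ℝ), ∀ ε > 0,
    ∃ η > 0, ∀ c ≥ 0, ∃ w₀ > 0, ∀ w ∈ Ioc 0 w₀, ∀ S ψ, (lv e c w S ψ).OK →
    ∀ (A : (lv e c w S ψ).ZC) (I : Set ℝ), IsOpen I → (lv e c w S ψ).cyl.AdmOn A (univ ×ˢ I) →
    ∀ t ∈ I, Sb A {t} C → 0 < nm (sl A t) → w * nm (sl A t) ≤ ρ →
      (∀ y, ‖(lv e c w S ψ).cyl.eC A (y, t) + deriv e.f (hol (sl A t)) • e.ζ y‖ ≤ η) →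
      1 ≤ K * gn (sl A t) ∨ (kp H a₀ σ A t ≤ ε + K * gn (sl A t) ∧
        deriv σ (H.s ((sl A t).a - a₀)) = 0 ∧ (∃ θ : (lf e).YC, Red θ ∧ θ.a = (ht H a₀ σ (sl A t)).a) ∧
        ∀ δ ≥ 0, (∀ l ∈ Sp, δ ≤ |fN H a₀ σ (sl A t) - l|) → δ ≤ fx H a₀ σ (sl A t))

/-- EN-SLF: the curvature on slices -/
def SlfStmt : Prop := ∀ e : En3 κ lam ν, e.OK → e.om = 0 → ∀ C : ℝ, ∃ C' : ℝ, ∀ w b S ψ,
  (e.re w b S ψ).OK → ∀ p q (A : (e.re w b S ψ).ZC), NS p q C 1 A → Sb A (Jd p q (1 / 8)) C →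
    ∀ t ∈ Jd p q (1 / 4), ∫ y, ‖e.cyl.fc A (y, t)‖ ^ 2 ∂e.D.F.μ ≤ C'

/-- EN-GSL: good slices next to a slice with a large spinor -/
def GslStmt : Prop := ∀ e : En3 κ lam ν, e.OK → ∀ C ρ : ℝ, 0 < ρ → ∃ Λ : ℝ, ∀ w b S ψ,
  (e.re w b S ψ).OK → ∀ (A : (e.re w b S ψ).ZC) t,
    (e.re w b S ψ).cyl.AdmOn A (univ ×ˢ Ioo (t - 1 / 8) (t + 1 / 8)) → ew A t ≤ ENNReal.ofReal C →
    ρ ≤ w * nm (sl A t) →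
    (∃ s ∈ Ioo (t - 1 / 8) t, fq 0 (sl A s) ≤ Λ * nm (sl A s) ∧ ρ / 2 ≤ w * nm (sl A s)) ∧
      ∃ s ∈ Ioo t (t + 1 / 8), fq 0 (sl A s) ≤ Λ * nm (sl A s) ∧ ρ / 2 ≤ w * nm (sl A s)

/-- EN-LW1: slices of small norm are uniformly small -/
def Lw1Stmt : Prop := ∀ e : En3 κ lam ν, e.OK → e.om = 0 → ∀ C K ε : ℝ, 0 < ε → ∀ c ≥ 0, ∃ w₀ > 0,
  ∀ w ∈ Ioc 0 w₀, ∀ S ψ, (lv e c w S ψ).OK → ∀ p q (A : (lv e c w S ψ).ZC), NS p q C 1 A →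
    Sb A (Jv p q) K → ∀ t ∈ Jd p q (1 / 16), nm (sl A t) ≤ 1 → Sb A {t} ε

/-- EN-C0U: the true spinor is bounded uniformly in the level (from LW1) -/
def C0uStmt : Prop := ∀ e : En3 κ lam ν, e.OK → e.om = 0 → ∀ C : ℝ, ∃ C' : ℝ, ∀ K : ℝ, ∀ c ≥ 0,
  ∃ w₀ > 0, ∀ w ∈ Ioc 0 w₀, ∀ S ψ, (lv e c w S ψ).OK → ∀ p q (A : (lv e c w S ψ).ZC),
    NS p q C 1 A → Sb A (Jv p q) K → Sb A (Jd p q (1 / 8)) C'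

/-- **EN-NECK** (from FRQ, HDG, RAY, SLC, SLF, GSL, C0U, DL) -/
def NeckStmt : Prop := ∀ (e : En3 κ lam ν) u, Kn e u → ∀ C Λ : ℝ, ∃ M ≥ (1 : ℝ), ∃ η > 0,
  ∀ c ≥ M, ∀ K : ℝ, ∃ w₀ > 0, ∀ w ∈ Ioc 0 w₀, ∀ S ψ, (lv e c w S ψ).OK →
    ∀ p q (A : (lv e c w S ψ).ZC), NS p q C η A → Sb A (Jv p q) K →
    (∀ t ∈ Jv p q, 0 < nm (sl A t)) → ∀ s ∈ Jd p q (1 / 4),
      (fq 0 (sl A s) ≤ Λ * nm (sl A s) → Fw M A (Jd p q (1 / 4) ∩ Ici s)) ∧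
      (∀ β ≥ 0, fq β (sl A s) ≤ Λ * nm (sl A s) → Bw p q M c A (Jd p q (1 / 4) ∩ Iic s)) ∧
      (Fw M A (Jd p q (1 / 4) ∩ Ici s) ∨ Bw p q M c A (Jd p q (1 / 4) ∩ Iic s))

end Crest.Agent.X212.End23
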