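import Crest.Agent.X212.End23.Sid

/-!
# Row 212, lane END-S (helper23): propagation of the size of the spinor through the tree of vertices
-/

set_option autoImplicit false
set_option linter.unusedSectionVars false
noncomputable section
open scoped Manifold ContDiff Topology InnerProductSpace
open MeasureTheory Set Function Filter

namespace Crest.Agent.X212.End23
open An Cyf70 Sw Sw.En3
open Nd18 (Jv ct Dp)
open M (Mf)
open Cut71 (mem_img tm_tgt)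
open Sw88 (mem_deep nm_nonneg)

variable {κ lam ν : Type} [Fintype κ] [Fintype lam] [Fintype ν] [DecidableEq ν]
  {X : Mf 4} {nc : ℕ} {N : Type} [Fintype N] {e : N → En3 κ lam ν}

/-- what the propagation uses -/
structure PH (P : Pz X nc e) (M Λ : ℕ → ℝ) (c : ℝ) (A : Cfg X.M κ ν) : Prop where
  top : TopStmt κ lam ν
  mM : Monotone M
  M1 : 1 ≤ M 0
  Λ1 : 1 ≤ Λ 2
  c0 : 0 ≤ c
  ok : P.OK
  adm : P.bg.Adm A
  two : ∀ i j k, Fn P i → Fn P j → Fn P k → i = j ∨ i = k ∨ j = k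
  one : ∀ i, P.Inf i false → ¬P.Inf i true
  di : ∀ i, ∀ K ∈ P.nk i, ∀ s ∈ K.deep (1 / 4), Fw (M 0) (K.pb A) (K.deep (1 / 4) ∩ Ici s) ∨
    Bw K.p K.q (M 0) c (K.pb A) (K.deep (1 / 4) ∩ Iic s)
  hin : ∀ i, ∀ K ∈ P.nk i, K.Inf false → ∀ T, ∃ s ∈ K.deep (1 / 4), s ≤ T ∧
    Fw (M 0) (K.pb A) (K.deep (1 / 4) ∩ Ici s) ∧ 1 / 4 ≤ nm (sl (K.pb A) s)
  hout : ∀ i, ∀ K ∈ P.nk i, K.Inf true → ∀ T, ∃ s ∈ K.deep (1 / 4), T ≤ s ∧
    Bw K.p K.q (M 0) c (K.pb A) (K.deep (1 / 4) ∩ Iic s)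
  uc : ∀ j ≤ 2, ∀ σ, (∀ i, Adj P σ i → Gw P (M j) A i (σ i)) →
    ∀ i, Adj P σ i → Gs P (Λ j) (ms P σ A.Φ) A i (σ i)
  nk : ∀ j ≤ 2, ∀ i, ∀ K ∈ P.nk i, ∀ s ∈ K.deep (1 / 4),
    fq 0 (sl (K.pb A) s) ≤ Λ j * nm (sl (K.pb A) s) →
      Fw (M (j + 1)) (K.pb A) (K.deep (1 / 4) ∩ Ici s) ∧
        Bw K.p K.q (M (j + 1)) c (K.pb A) (K.deep (1 / 4) ∩ Iic s)

variable {P : Pz X nc e} {M Λ : ℕ → ℝ} {c m m' L η : ℝ} {A : Cfg X.M κ ν} {i j : N} {s : Bool}
  {σ σ' : N → Bool}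

theorem Gw.mono (h : Gw P m A i s) (k : m ≤ m') : Gw P m' A i s := fun K a t b t' b' =>
  (h K a t b t' b').trans (mul_le_mul_of_nonneg_right k (nm_nonneg _))

theorem gw_t {K} (hK : K ∈ P.nk i) {r s : ℝ} (hr : K.q = some r) (hs : s ≤ r - 3 / 4)
    (h : Fw m (K.pb A) (K.deep (1 / 4) ∩ Ici s)) : Gw P m A i true := fun K' a t b t' b' => by
  cases hK.symm.trans a
  have f : ¬K.Inf true := by simp [Nk.Inf, hr]
  have d := col_deep (d := 1 / 4) f (by norm_num) (by norm_num) b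
  have d' := col_deep (d := 1 / 4) f (by norm_num) (by norm_num) b'
  rw [col_t hr] at b b'
  exact h.sh t' ⟨d', show s ≤ t' by linarith⟩ t ⟨d, show s ≤ t by linarith⟩ (by linarith)
    (by linarith)

theorem gw_f {K} (hK : K ∈ P.nk i) {r s : ℝ} (hr : K.p = some r) (hs : r + 3 / 4 ≤ s)
    (h : Bw K.p K.q m c (K.pb A) (K.deep (1 / 4) ∩ Iic s)) : Gw P m A i false :=
  fun K' a t b t' b' => by
  cases hK.symm.trans a
  have f : ¬K.Inf false := by simp [Nk.Inf, hr]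
  have d := col_deep (d := 1 / 4) f (by norm_num) (by norm_num) b
  have d' := col_deep (d := 1 / 4) f (by norm_num) (by norm_num) b'
  rw [col_f hr] at b b'
  exact h.sh t ⟨d, show t ≤ s by linarith⟩ t' ⟨d', show t' ≤ s by linarith⟩ (by linarith)
    (by linarith) fun u hu => Nd18.ct_zero fun k => by linarith [k.1 r hr, hu.2]

theorem Fn.ex (h : Fn P i) : ∃ K a r, P.nk i = some K ∧ K.p = some a ∧ K.q = some r ∧ a + 2 ≤ r :=
  let ⟨K, hK⟩ := nk_of_act h.1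
  let ⟨a, ha⟩ := fin_f (h.2 K hK false)
  let ⟨r, hr⟩ := fin_t (h.2 K hK true)
  ⟨K, a, r, hK, ha, hr, K.len a ha r hr⟩

theorem Fn.fin (h : Fn P i) (s : Bool) : ¬P.Inf i s := fun ⟨K, a, b⟩ => h.2 K a s b

theorem ms_nonneg (σ : N → Bool) (φ : X.M → Eu ν) : 0 ≤ ms P σ φ :=
  integral_nonneg fun _ => sq_nonneg _

theorem enorm_sq (v : Eu ν) : ‖v‖ₑ ^ 2 = ENNReal.ofReal (‖v‖ ^ 2) := by
  rw [ENNReal.ofReal_pow (norm_nonneg _), ofReal_norm]

theorem lint_nm {e : En3 κ lam ν} {b : Bg X.I X.M κ lam ν nc} (K : Nk e b) (hA : Continuous A.Φ)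
    {J : Set ℝ} (hJ : IsOpen J) (h : J ⊆ K.J) {B : ℝ} (hB : ∀ t ∈ J, nm (sl (K.pb A) t) ≤ B) :
    ∫⁻ x in K.ψ '' univ ×ˢ J, ‖A.Φ x‖ₑ ^ 2 ∂b.F.μ ≤ ENNReal.ofReal B * volume J := by
  refine (Sw88.lint_img K hJ h _).trans ?_
  change ∫⁻ x in univ ×ˢ J, _ ∂(e.D.F.μ.prod volume) ≤ _
  rw [← Measure.prod_restrict, Measure.restrict_univ, ← lintegral_prod_swap, ← setLIntegral_const]
  refine (lintegral_prod_le _).trans (setLIntegral_mono' hJ.measurableSet fun t ht => ?_)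
  have c : Continuous fun y => ‖A.Φ (K.ψ (y, t))‖ ^ 2 := (hA.comp (K.ψ.continuousOn.comp_continuous
    (by fun_prop) fun _ => K.mem_src.2 (h ht))).norm.pow 2
  simp only [enorm_sq]
  exact (ofReal_integral_eq_lintegral_ofReal (c.integrable_of_hasCompactSupport
    (.of_compactSpace _)) (.of_forall fun _ => sq_nonneg _)).ge.trans
      (ENNReal.ofReal_le_ofReal (hB t ht))

/-- the neck is short -/
def Sh (P : Pz X nc e) (L : ℝ) (i : N) : Prop := ∀ K ∈ P.nk i, ∀ a ∈ K.p, ∀ r ∈ K.q, r ≤ a + L + 2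

/-- vertices of the root -/
def Ro (P : Pz X nc e) (L : ℝ) (σ : N → Bool) : Prop := ∀ i, Fn P i → σ i = true → Sh P L i

/-- the growth over a short neck -/
def gE (M : ℕ → ℝ) (c L : ℝ) : ℝ := Real.exp ((6 * c + M 3) * (L + 3))

/-- the loss at a neck -/
def gD (M Λ : ℕ → ℝ) (c L : ℝ) : ℝ := M 3 * Λ 2 * Λ 2 * gE M c L

namespace PH
variable (H : PH P M Λ c A)
include H

theorem gw_end (h : Adj P σ i) (n : ¬Fn P i) : Gw P (M 0) A i (σ i) := by
  obtain ⟨K, hK⟩ := nk_of_act h.1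
  have f : ¬K.Inf (σ i) := fun k => h.fin ⟨K, hK, k⟩
  have g : K.Inf (!σ i) := by
    by_contra k
    refine n ⟨h.1, fun K' a s => ?_⟩
    cases hK.symm.trans a
    revert f k
    cases s <;> cases σ i <;> simp +contextual
  revert f g
  rcases σ i with _ | _ <;> intro f g
  · obtain ⟨a, ha⟩ := fin_f f
    obtain ⟨s, -, h1, h2⟩ := H.hout i K hK g (a + 3 / 4)
    exact gw_f hK ha h1 h2
  · obtain ⟨a, ha⟩ := fin_t f
    obtain ⟨s, -, h1, h2, -⟩ := H.hin i K hK g (a - 3 / 4)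
    exact gw_t hK ha h1 h2

theorem gw_or (h : Fn P i) (s : Bool) : Gw P (M 0) A i s ∨ Gw P (M 0) A i (!s) := by
  obtain ⟨K, a, r, hK, ha, hr, l⟩ := h.ex
  have := (H.di i K hK (a + 1) ((mem_deep K).2 ⟨fun _ k => by cases ha.symm.trans k; linarith,
    fun _ k => by cases hr.symm.trans k; linarith⟩)).imp (gw_t hK hr (by linarith))
      (gw_f hK ha (by linarith))
  cases s
  exacts [this.symm, this]

theorem gw_cross {n : ℕ} (hn : n ≤ 2) (h : Fn P i) (g : Gs P (Λ n) m A i s) :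
    Gw P (M (n + 1)) A i (!s) := by
  obtain ⟨K, a, r, hK, ha, hr, l⟩ := h.ex
  obtain ⟨t, h1, h2, -⟩ := g K hK
  have := H.nk n hn i K hK t (col_deep (h.2 K hK s) (by norm_num) (by norm_num) h1) h2
  cases s
  · exact gw_t hK hr (by linarith [((col_f ha).1 h1).2]) this.1
  · exact gw_f hK ha (by linarith [((col_t hr).1 h1).1]) this.2

theorem step {n : ℕ} (hn : n ≤ 2) (h : Fn P i) (g : ¬Gw P (M n) A i s) :
    ∃ j, Fn P j ∧ (∃ s, ¬Gw P (M n) A j s) ∧ ∀ s, Gw P (M (n + 1)) A j s := by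
  have m0 : M 0 ≤ M n := H.mM n.zero_le
  have ot : ∀ {j s}, Fn P j → ¬Gw P (M n) A j s → Gw P (M n) A j (!s) := fun {j s} h g =>
    ((H.gw_or h s).resolve_left fun k => g (k.mono m0)).mono m0
  have key : ∀ {j s}, Fn P j → ¬Gw P (M n) A j s →
      (∀ k, Fn P k → k ≠ j → Adj P (vt P j (!s)) k → Gw P (M n) A k (os P k j)) →
      ∃ j, Fn P j ∧ (∃ s, ¬Gw P (M n) A j s) ∧ ∀ s, Gw P (M (n + 1)) A j s := fun {j s} h g u => by
    have := H.uc n hn (vt P j (!s)) (fun k a => by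
      by_cases e : k = j
      · subst e
        rw [vt_self]
        exact ot h g
      · by_cases f : Fn P k
        · rw [vt_ne e]
          exact u k f e a
        · exact (H.gw_end a f).mono m0) j (adj_vt H.ok h.1 (h.fin _))
    rw [vt_self] at this
    have a := H.gw_cross hn h this
    have b := (ot h g).mono (H.mM n.le_succ)
    refine ⟨j, h, ⟨s, g⟩, fun s' => ?_⟩
    cases s <;> cases s' <;> first | exact a | exact b
  by_cases u : ∀ k, Fn P k → k ≠ i → Adj P (vt P i (!s)) k → Gw P (M n) A k (os P k i)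
  · exact key h g u
  · push Not at u
    obtain ⟨k, f, e, a, b⟩ := u
    refine key f b fun l f' e' _ => ?_
    obtain rfl : l = i := by
      rcases H.two l i k f' h f with r | r | r
      exacts [r, (e' r).elim, (e r.symm).elim]
    rw [← a.os H.ok h.1 e', vt_self]
    exact ot h g

theorem gw_all (h : Fn P i) (s : Bool) : Gw P (M 2) A i s := by
  by_contra g
  obtain ⟨j, f, ⟨s', g'⟩, u⟩ := H.step (n := 1) one_le_two h fun k => g (k.mono (H.mM one_le_two))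
  obtain ⟨k, f', -, u'⟩ := H.step (n := 0) zero_le_two f fun k => g' (k.mono (H.mM zero_le_one))
  rcases H.two i j k h f f' with rfl | rfl | rfl
  exacts [g (u s), g ((u' s).mono (H.mM one_le_two)), g' (u' s')]

theorem gs (h : ¬P.Off i) (hs : ¬P.Inf i s) : Gs P (Λ 2) (ms P (vt P i s) A.Φ) A i s := by
  have := H.uc 2 le_rfl (vt P i s) (fun k a => by
    by_cases f : Fn P k
    exacts [H.gw_all f _, (H.gw_end a f).mono (H.mM zero_le_two)]) i (adj_vt H.ok h hs)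
  rwa [vt_self] at this

theorem M3 : 1 ≤ M 3 := H.M1.trans (H.mM (by norm_num))

theorem E1 (hL : 0 ≤ L) : 1 ≤ gE M c L :=
  Real.one_le_exp (mul_nonneg (by linarith [H.c0, H.M3]) (by linarith))

theorem D1 (hL : 0 ≤ L) : 1 ≤ gD M Λ c L :=
  one_le_mul_of_one_le_of_one_le (one_le_mul_of_one_le_of_one_le
    (one_le_mul_of_one_le_of_one_le H.M3 H.Λ1) H.Λ1) (H.E1 hL)

theorem fwd (h : ¬P.Off i) {K} (hK : K ∈ P.nk i) {a t : ℝ} (ha : K.p = some a) (h2 : η ≤ 1 / 2)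
    (h3 : η ≤ ms P (vt P i false) A.Φ) (ht : t ∈ K.deep (1 / 4)) (h4 : a + 1 / 2 ≤ t) :
    η ≤ M 3 * Λ 2 * nm (sl (K.pb A) t) := by
  have f : ¬K.Inf false := by simp [Nk.Inf, ha]
  obtain ⟨s, k1, k2, k3, -⟩ := H.gs h (s := false) (fun ⟨K', a, b⟩ => by
    cases hK.symm.trans a; exact f b) K hK
  have d := col_deep (d := 1 / 4) f (by norm_num) (by norm_num) k1
  have l : s ≤ t := by linarith [((col_f ha).1 k1).2]
  have := (H.nk 2 le_rfl i K hK s d k2).1.low s ⟨d, le_refl s⟩ t ⟨ht, l⟩ l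
  have p := H.Λ1
  rw [mul_comm (M 3), mul_assoc]
  refine le_trans ?_ (mul_le_mul_of_nonneg_left this (by linarith))
  rw [mul_min_of_nonneg _ _ (by linarith)]
  exact le_min (h3.trans k3) (by linarith)

theorem bwd (h : ¬P.Off i) {K} (hK : K ∈ P.nk i) {a : ℝ} (ha : K.p = some a) :
    ∃ s u, a + 1 / 4 < s ∧ s < a + 1 / 2 ∧ u ∈ K.deep (1 / 4) ∧
      (a + L + 2 ≤ u ∨ ∃ r ∈ K.q, r - 1 / 2 < u ∧
        ms P (vt P i true) A.Φ ≤ Λ 2 * nm (sl (K.pb A) u)) ∧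
      ∀ t ∈ Icc s u, t ≤ a + L + 2 →
        nm (sl (K.pb A) t) ≤ gE M c L * (Λ 2 * ms P (vt P i false) A.Φ) := by
  have f : ¬K.Inf false := by simp [Nk.Inf, ha]
  obtain ⟨s, k1, -, -, k3⟩ := H.gs h (s := false) (fun ⟨K', a, b⟩ => by
    cases hK.symm.trans a; exact f b) K hK
  have d := col_deep (d := 1 / 4) f (by norm_num) (by norm_num) k1
  rw [col_f ha] at k1
  obtain ⟨u, m, h1, h2, h3, h4⟩ : ∃ u m, u ∈ K.deep (1 / 4) ∧ (a + L + 2 ≤ u ∨ ∃ r ∈ K.q,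
      r - 1 / 2 < u ∧ ms P (vt P i true) A.Φ ≤ Λ 2 * nm (sl (K.pb A) u)) ∧ m ∈ Icc 1 (M 3) ∧
      Bw K.p K.q m c (K.pb A) (K.deep (1 / 4) ∩ Iic u) := by
    by_cases g : K.Inf true
    · obtain ⟨u, h1, h2, h3⟩ := H.hout i K hK g (a + L + 2)
      exact ⟨u, _, h1, .inl h2, ⟨H.M1, H.mM (by norm_num)⟩, h3⟩
    · obtain ⟨u, k1, k2, k3, -⟩ := H.gs h (s := true) (fun ⟨K', a, b⟩ => by
        cases hK.symm.trans a; exact g b) K hK
      have d := col_deep (d := 1 / 4) g (by norm_num) (by norm_num) k1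
      obtain ⟨r, hr⟩ := fin_t g
      exact ⟨u, _, d, .inr ⟨r, hr, ((col_t hr).1 k1).1, k3⟩, ⟨H.M3, le_rfl⟩,
        (H.nk 2 le_rfl i K hK u d k2).2⟩
  refine ⟨s, u, by linarith [k1.1], k1.2, h1, h2, fun t ht l => ?_⟩
  have dt : t ∈ K.deep (1 / 4) := (mem_deep K).2
    ⟨fun r k => (((mem_deep K).1 d).1 r k).trans_le ht.1,
      fun r k => ht.2.trans_lt (((mem_deep K).1 h1).2 r k)⟩
  refine (h4.gro s ⟨d, ht.1.trans ht.2⟩ t ⟨dt, ht.2⟩ ht.1).trans
    (mul_le_mul (Real.exp_le_exp.2 ?_) k3 (nm_nonneg _) (Real.exp_pos _).le)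
  exact mul_le_mul (by linarith [h3.2]) (by linarith [k1.1]) (by linarith [ht.1])
    (by linarith [H.c0, H.M3])

theorem cross (hL : 0 ≤ L) (h : Fn P i) (sh : s = true → Sh P L i) (h2 : η ≤ 1 / 2)
    (h3 : η ≤ ms P (vt P i s) A.Φ) : η ≤ gD M Λ c L * ms P (vt P i (!s)) A.Φ := by
  obtain ⟨K, a, r, hK, ha, hr, l⟩ := h.ex
  have p1 := H.Λ1
  have p2 := H.M3
  have p3 := H.E1 (L := L) hL
  have p := ms_nonneg (P := P) (vt P i (!s)) A.Φ
  cases s
  · obtain ⟨u, k1, -, -, k3⟩ := H.gs h.1 (h.fin true) K hK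
    have := H.fwd h.1 hK ha h2 h3 (col_deep (h.2 K hK _) (by norm_num) (by norm_num) k1)
      (by linarith [((col_t hr).1 k1).1])
    calc η ≤ M 3 * Λ 2 * (Λ 2 * ms P (vt P i true) A.Φ) := this.trans (by gcongr)
      _ = M 3 * Λ 2 * Λ 2 * 1 * ms P (vt P i true) A.Φ := by ring
      _ ≤ _ := mul_le_mul_of_nonneg_right (by unfold gD; gcongr) p
  · obtain ⟨s, u, k1, k2, k3, k4, k5⟩ := H.bwd (L := L) h.1 hK ha
    have a1 := sh rfl K hK a ha r hr
    have a2 := ((mem_deep K).1 k3).2 r hr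
    obtain ⟨_, k6, k7, k8⟩ := k4.resolve_left (by linarith)
    cases hr.symm.trans k6
    have := k5 u ⟨by linarith, le_rfl⟩ (by linarith)
    calc η ≤ Λ 2 * (gE M c L * (Λ 2 * ms P (vt P i false) A.Φ)) := h3.trans (k8.trans (by gcongr))
      _ = 1 * Λ 2 * Λ 2 * gE M c L * ms P (vt P i false) A.Φ := by ring
      _ ≤ _ := mul_le_mul_of_nonneg_right (by unfold gD; gcongr) p

theorem one' (hL : 0 ≤ L) {x x'} (hx : x ∈ Vx P σ (1 / 2)) (hx' : x' ∈ Vx P σ' (1 / 2)) (h : Fn P j)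
    (n : σ j ≠ σ' j) (a : ∀ k, Fn P k → k ≠ j → σ k = σ' k) (sh : σ j = true → Sh P L j)
    (h2 : η ≤ 1 / 2) (h3 : η ≤ ms P σ A.Φ) : η / gD M Λ c L ≤ ms P σ' A.Φ := by
  have o : ∀ k, Fn P k → k ≠ j → σ k = os P k j := fun k f e => by
    rcases on_or H.top H.ok h f.1 e.symm hx with r | r
    · rcases on_or H.top H.ok h f.1 e.symm hx' with r' | r'
      exacts [(n (r.trans r'.symm)).elim, (a k f e).trans r']
    · exact r
  have sim : ∀ {τ y}, y ∈ Vx P τ (1 / 2) → (∀ k, Fn P k → k ≠ j → τ k = os P k j) →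
      ms P τ A.Φ = ms P (vt P j (τ j)) A.Φ := fun {τ y} hy u => by
    obtain ⟨z, hz⟩ := vt_ne' H.ok h.1 (h.fin (τ j))
    rw [ms, ms, vx_eq hy hz fun k f => ?_]
    by_cases e : k = j
    · rw [e, vt_self]
    · rw [vt_ne e, u k f e]
  rw [sim hx o] at h3
  rw [sim hx' fun k f e => (a k f e).symm.trans (o k f e), div_le_iff₀' (by linarith [H.D1 (L := L) hL]),
    show σ' j = !σ j by revert n; cases σ j <;> cases σ' j <;> simp]
  exact H.cross hL h sh h2 h3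

theorem path (hL : 0 ≤ L) {x x'} (hx : x ∈ Vx P σ (1 / 2)) (hx' : x' ∈ Vx P σ' (1 / 2))
    (r : Ro P L σ) (h0 : 0 ≤ η) (h2 : η ≤ 1 / 2) (h3 : η ≤ ms P σ A.Φ) :
    η / gD M Λ c L / gD M Λ c L ≤ ms P σ' A.Φ := by
  have p := H.D1 (L := L) hL
  have q1 : η / gD M Λ c L ≤ η := div_le_self h0 p
  have q2 : η / gD M Λ c L / gD M Λ c L ≤ η / gD M Λ c L := div_le_self (by positivity) p
  by_cases u : ∀ j, Fn P j → σ j = σ' j
  · rw [ms, ← vx_eq hx hx' u]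
    exact q2.trans (q1.trans h3)
  push Not at u
  obtain ⟨j, f, n⟩ := u
  by_cases u : ∀ k, Fn P k → k ≠ j → σ k = σ' k
  · exact q2.trans (H.one' hL hx hx' f n u (r j f) h2 h3)
  push Not at u
  obtain ⟨k, f', e, n'⟩ := u
  have key : ∀ j k, Fn P j → Fn P k → k ≠ j → σ j ≠ σ' j → σ k ≠ σ' k → σ j = os P j k →
      η / gD M Λ c L / gD M Λ c L ≤ ms P σ' A.Φ := fun j k f f' e n n' o => by
    obtain ⟨z, hz⟩ := vt_ne' H.ok f'.1 (f'.fin (σ' k))
    have b : vt P k (σ' k) j = σ j := (vt_ne e.symm).trans o.symm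
    refine H.one' hL hz hx' f (b ▸ n) (fun l g e' => ?_) (b ▸ r j f) (q1.trans h2)
      (H.one' hL hx hz f' (vt_self (P := P) ▸ n') (fun l g e' => ?_) (r k f') h2 h3)
    · rcases H.two l j k g f f' with rfl | rfl | rfl
      exacts [(e' rfl).elim, vt_self, (e rfl).elim]
    · rcases H.two l j k g f f' with rfl | rfl | rfl
      exacts [b.symm, (e' rfl).elim, (e rfl).elim]
  rcases on_or H.top H.ok f f'.1 e.symm hx with o | o
  exacts [key j k f f' e n n' o, key k j f' f e.symm n' n o]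

theorem inn {K} (hK : K ∈ P.nk i) (g : K.Inf false) {t : ℝ} (ht : t ∈ K.deep (1 / 4)) :
    1 / 4 ≤ M 3 * nm (sl (K.pb A) t) := by
  obtain ⟨s, h1, h2, h3, h4⟩ := H.hin i K hK g t
  exact ((le_min h4 (by norm_num)).trans (h3.low s ⟨h1, le_refl s⟩ t ⟨ht, h2⟩ h2)).trans
    (mul_le_mul_of_nonneg_right (H.mM (by norm_num)) (nm_nonneg _))

theorem low (hL : 0 ≤ L) {x} (hx : x ∈ Vx P σ (1 / 2)) (r : Ro P L σ) (h0 : 0 ≤ η) (h2 : η ≤ 1 / 4)
    (h3 : η ≤ ms P σ A.Φ) {K} (hK : K ∈ P.nk i) {t : ℝ} (ht : t ∈ K.deep 3) :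
    η / gD M Λ c L / gD M Λ c L / (M 3 * Λ 2) ≤ nm (sl (K.pb A) t) := by
  have p := H.D1 (L := L) hL
  have p1 := H.Λ1
  have p2 := H.M3
  have q : η / gD M Λ c L / gD M Λ c L ≤ η := (div_le_self (by positivity) p).trans (div_le_self h0 p)
  have d : t ∈ K.deep (1 / 4) := Sw88.deep_near K ht (by norm_num)
  rw [div_le_iff₀' (by positivity)]
  by_cases g : K.Inf false
  · refine q.trans (h2.trans ((H.inn hK g d).trans ?_))
    exact mul_le_mul_of_nonneg_right (le_mul_of_one_le_right (by linarith) p1) (nm_nonneg _)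
  · have h : ¬P.Off i := fun k => Cut71.off_deep K (by norm_num) (k K hK) t ht
    obtain ⟨a, ha⟩ := fin_f g
    obtain ⟨z, hz⟩ := vt_ne' H.ok h (s := false) fun ⟨K', a, b⟩ => by
      cases hK.symm.trans a; exact g b
    exact H.fwd h hK ha (by linarith) (H.path hL hx hz r h0 (by linarith) h3) d
      (by linarith [((mem_deep K).1 ht).1 a ha])

/-- the vertex at the incoming end -/
theorem src_in (hL : 1 ≤ L) (u : Up P) (h : P.Inf j false) : ∃ σ, (Vx P σ (1 / 2)).Nonempty ∧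
    Ro P L σ ∧ 1 / 4 / (M 3 * Λ 2) ≤ ms P σ A.Φ := by
  have h' := H.one j h
  obtain ⟨K, hK, g⟩ := id h
  have o : ¬P.Off j := fun k => let ⟨a, b, _⟩ := k K hK; by simp [Nk.Inf, b] at g
  refine ⟨vt P j true, vt_ne' H.ok o h', fun i f b K' hK' a ha r hr => ?_, ?_⟩
  · have e : i ≠ j := fun e => f.fin false (e ▸ h)
    by_contra! k
    obtain ⟨m, hm⟩ := exists_mid K
    obtain ⟨x, hx, -⟩ := exists_tm (Nd18.Dp_sub one_pos hm)
    have a1 := u i K' hK' a ha r hr (by linarith) j h K hK x hx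
    have a2 := on_spec H.ok e hK' hK hx
    rw [← vt_ne (s := true) e, b] at a2
    obtain ⟨_, k1, k2⟩ := hf_t.1 a2
    cases hr.symm.trans k1
    linarith
  · obtain ⟨t, k1, -, -, k3⟩ := H.gs o h' K hK
    have := H.inn hK g (col_deep (fun k => h' ⟨K, hK, k⟩) (by norm_num) (by norm_num) k1)
    have p1 := H.Λ1
    have p2 := H.M3
    rw [div_le_iff₀' (by positivity), mul_assoc]
    exact this.trans (by gcongr)

/-- a vertex of the root -/
theorem src_rt [DecidableEq N] (hL : 0 ≤ L) (h : ∀ j, ¬P.Inf j false) (h0 : 0 ≤ η)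
    (big : ENNReal.ofReal (Fintype.card (N → Bool) * η + Fintype.card N *
      (gE M c L * (Λ 2 * η) * (L + 2))) < ∫⁻ x in Rt P L, ‖A.Φ x‖ₑ ^ 2 ∂P.bg.F.μ) :
    ∃ σ, (Vx P σ (1 / 2)).Nonempty ∧ Ro P L σ ∧ η ≤ ms P σ A.Φ := by
  by_contra! k
  have p1 := H.Λ1
  have p3 := H.E1 (L := L) hL
  have cA := H.adm.sΦ.continuous
  refine big.not_ge ?_
  let V : (N → Bool) → Set X.M := fun σ => {x ∈ Vx P σ (1 / 2) | Ro P L σ}
  let W : N → Set X.M := fun i =>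
    {x ∈ Rt P L | ¬P.Off i ∧ ∃ K ∈ P.nk i, K.tm x ∈ Dp K.p K.q (1 / 2)}
  have ct : ∀ x ∈ Rt P L, ∀ i, (∀ K ∈ P.nk i, x ∈ sd K true (1 / 2)) → Sh P L i :=
    fun x hx i u K hK a ha r hr => by
      by_contra! l
      have a1 := hx i K hK a ⟨ha, fun _ k => by cases hr.symm.trans k; exact l.le⟩
      obtain ⟨_, k1, k2⟩ := sd_t.1 (u K hK)
      cases hr.symm.trans k1
      linarith
  have cov : Rt P L ⊆ (⋃ σ, V σ) ∪ ⋃ i, W i := fun x hx => by
    classical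
    by_contra n
    simp only [mem_union, mem_iUnion, not_or, not_exists] at n
    refine n.1 (fun i => ∀ K ∈ P.nk i, x ∈ sd K true (1 / 2))
      ⟨fun i o K hK => ?_, fun i _ u => ct x hx i (of_decide_eq_true u)⟩
    by_cases u : ∀ K ∈ P.nk i, x ∈ sd K true (1 / 2)
    · simp only [decide_eq_true u]
      exact u K hK
    · simp only [decide_eq_false u]
      rcases Nd18.not_Dp fun k => n.2 i ⟨hx, o, K, hK, k⟩ with ⟨a, h1, h2⟩ | ⟨a, h1, h2⟩
      · exact sd_f.2 ⟨a, h1, h2⟩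
      · exact (u fun K' b => by cases hK.symm.trans b; exact sd_t.2 ⟨a, h1, h2⟩).elim
  have hV : ∀ σ, ∫⁻ x in V σ, ‖A.Φ x‖ₑ ^ 2 ∂P.bg.F.μ ≤ ENNReal.ofReal η := fun σ => by
    rcases (V σ).eq_empty_or_nonempty with u | ⟨x, h1, h2⟩
    · simp [u]
    refine (lintegral_mono_set fun _ u => u.1).trans ?_
    simp only [enorm_sq]
    exact (ofReal_integral_eq_lintegral_ofReal (((cA.norm.pow 2).continuousOn.integrableOn_compact
      (H.top.vx X nc N e P H.ok σ _ ⟨by norm_num, by norm_num⟩).2.2.1).mono_set subset_closure)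
        (.of_forall fun _ => sq_nonneg _)).ge.trans (ENNReal.ofReal_le_ofReal (k σ ⟨x, h1⟩ h2).le)
  have hW : ∀ i, ∫⁻ x in W i, ‖A.Φ x‖ₑ ^ 2 ∂P.bg.F.μ ≤
      ENNReal.ofReal (gE M c L * (Λ 2 * η) * (L + 2)) := fun i => by
    rcases (W i).eq_empty_or_nonempty with u | ⟨x, h1, o, K, hK, h2⟩
    · simp [u]
    obtain ⟨a, ha⟩ := fin_f fun b => h i ⟨K, hK, b⟩
    have r := k _ (vt_ne' H.ok o (h i)) fun j f b => ct x h1 j fun K' hK' => by
      have e : j ≠ i := fun e => by simp [e, vt_self] at b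
      rw [← b, vt_ne e]
      exact hf_sd (by norm_num) (on_spec H.ok e hK' hK
        ((tm_tgt K).2 (Nd18.Dp_sub (by norm_num) h2)))
    obtain ⟨s, u, k1, k2, k3, k4, k5⟩ := H.bwd (L := L) o hK ha
    have sub : Ioo s (min u (a + L + 2)) ⊆ K.J := fun t ht =>
      ⟨fun _ k => by cases ha.symm.trans k; linarith [ht.1], fun r k => by
        linarith [((mem_deep K).1 k3).2 r k, (lt_min_iff.1 ht.2).1]⟩
    refine (lintegral_mono_set (t := K.ψ '' univ ×ˢ Ioo s (min u (a + L + 2))) ?_).trans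
      ((lint_nm K cA isOpen_Ioo sub (B := gE M c L * (Λ 2 * η)) fun t ht =>
        (k5 t ⟨ht.1.le, (lt_min_iff.1 ht.2).1.le⟩ (lt_min_iff.1 ht.2).2.le).trans
          (by gcongr)).trans ?_)
    · rintro y ⟨y1, -, K', hK', y2⟩
      cases hK.symm.trans hK'
      have l : K.tm y < a + L + 2 := by
        by_contra! l
        linarith [y1 i K hK a ⟨ha, fun r k => by linarith [y2.2 r k]⟩]
      refine (mem_img K sub).2 ⟨by linarith [y2.1 a ha], lt_min ?_ l⟩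
      rcases k4 with k4 | ⟨r, k6, k7, -⟩
      exacts [l.trans_le k4, (y2.2 r k6).trans_lt k7]
    · rw [Real.volume_Ioo, ← ENNReal.ofReal_mul (by positivity)]
      gcongr
      linarith [min_le_right u (a + L + 2)]
  refine (lintegral_mono_set cov).trans ((lintegral_union_le _ _ _).trans ?_)
  rw [ENNReal.ofReal_add (by positivity) (by positivity)]
  refine add_le_add ((lintegral_iUnion_le _ _).trans ?_) ((lintegral_iUnion_le _ _).trans ?_) <;>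
    rw [tsum_fintype, ENNReal.ofReal_mul (Nat.cast_nonneg _), ENNReal.ofReal_natCast,
      ← nsmul_eq_mul, ← Finset.card_univ]
  exacts [Finset.sum_le_card_nsmul _ _ _ fun σ _ => hV σ, Finset.sum_le_card_nsmul _ _ _ fun i _ => hW i]

end PH

/-- **PROP** -/
theorem prop (N : Type) [Fintype N] [DecidableEq N] (M Λ : ℕ → ℝ) (c : ℝ) {L : ℝ} (hL : 1 ≤ L) : ∃ η > 0,
    ∀ (X : Mf 4) (nc : ℕ) (e : N → En3 κ lam ν) (P : Pz X nc e) A, PH P M Λ c A →
      (Up P ∧ ∃ j, P.Inf j false) ∨ ((∀ j, ¬P.Inf j false) ∧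
        1 < ∫⁻ x in Rt P L, ‖A.Φ x‖ₑ ^ 2 ∂P.bg.F.μ) →
      ∀ i, ∀ K ∈ P.nk i, ∀ t ∈ K.deep 3, η ≤ nm (sl (K.pb A) t) := by
  by_cases p : 1 ≤ M 3 ∧ 1 ≤ Λ 2 ∧ 1 ≤ gD M Λ c L
  swap
  · exact ⟨1, one_pos, fun _ _ _ _ _ H => (p ⟨H.M3, H.Λ1, H.D1 (by linarith)⟩).elim⟩
  obtain ⟨p1, p2, p3⟩ := p
  have p4 : 0 < gE M c L := Real.exp_pos _
  obtain ⟨η, h0, h1, h2⟩ : ∃ η > 0, η ≤ 1 / 4 / (M 3 * Λ 2) ∧ Fintype.card (N → Bool) * η +
      Fintype.card N * (gE M c L * (Λ 2 * η) * (L + 2)) ≤ 1 := by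
    have : ∀ᶠ η in 𝓝[>] (0 : ℝ), 0 < η ∧ η ≤ 1 / 4 / (M 3 * Λ 2) ∧ Fintype.card (N → Bool) * η +
        Fintype.card N * (gE M c L * (Λ 2 * η) * (L + 2)) ≤ 1 :=
      eventually_mem_nhdsWithin.and (((eventually_le_nhds (by positivity)).and
        (ContinuousAt.eventually_lt (by fun_prop) continuousAt_const (by simp) |>.mono
          fun _ => le_of_lt)).filter_mono nhdsWithin_le_nhds)
    exact this.exists
  refine ⟨η / gD M Λ c L / gD M Λ c L / (M 3 * Λ 2), by positivity, fun X nc e P A H h i K hK t ht => ?_⟩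
  obtain ⟨σ, ⟨x, hx⟩, r, k⟩ : ∃ σ, (Vx P σ (1 / 2)).Nonempty ∧ Ro P L σ ∧ η ≤ ms P σ A.Φ := by
    rcases h with ⟨u, j, h⟩ | ⟨h, b⟩
    · exact (H.src_in hL u h).imp fun _ k => ⟨k.1, k.2.1, h1.trans k.2.2⟩
    · exact H.src_rt (by linarith) h h0.le (((ENNReal.ofReal_le_one).2 h2).trans_lt b)
  exact H.low (by linarith) hx r h0.le
    (h1.trans (div_le_self (by norm_num) (one_le_mul_of_one_le_of_one_le p1 p2))) k hK ht

end Crest.Agent.X212.End23
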