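import Crest.Agent.X212.End23.Cor
import Crest.Agent.X212.Sw88.Apr
import Crest.Agent.X212.Sw88.Cut
import Crest.Agent.X212.Cut71.Hf

/-!
# Row 212, lane END-S (helper23): the sides of necks and the tree of vertices
-/

set_option autoImplicit false
set_option linter.unusedSectionVars false
noncomputable section
open scoped Manifold ContDiff Topology InnerProductSpace
open MeasureTheory Set Function Filter

namespace Crest.Agent.X212.End23
open An Cyf70 Sw Sw.En3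
open Nd18 (Jv ct Dp)
open M (Mf)
open Cut71 (mem_img tm_tgt)
open Sw88 (mem_deep nm_nonneg)

variable {κ lam ν : Type} [Fintype κ] [Fintype lam] [Fintype ν] [DecidableEq ν]
  {X : Mf 4} {nc : ℕ}

section nk
variable {e : En3 κ lam ν} {b : Bg X.I X.M κ lam ν nc} (K : Nk e b) {s s' : Bool} {d d' : ℝ}
  {x : X.M}

/-- beyond the side `s` -/
def hf (s : Bool) : Set X.M := sd K s 0 ∪ {x | ∃ r ∈ (if s then K.q else K.p), K.tm x = r}

variable {K}

theorem sd_t : x ∈ sd K true d ↔ ∃ r ∈ K.q, r - d < K.tm x := by simp [sd]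
theorem sd_f : x ∈ sd K false d ↔ ∃ r ∈ K.p, K.tm x < r + d := by simp [sd]

theorem hf_t : x ∈ hf K true ↔ ∃ r ∈ K.q, r ≤ K.tm x := by
  simp only [hf, mem_union, sd_t, sub_zero, if_true, mem_ofPred_eq]
  exact ⟨fun h => h.elim (fun ⟨r, a, b⟩ => ⟨r, a, b.le⟩) fun ⟨r, a, b⟩ => ⟨r, a, b.ge⟩,
    fun ⟨r, a, b⟩ => b.lt_or_eq.imp (fun b => ⟨r, a, b⟩) fun b => ⟨r, a, b.symm⟩⟩

theorem hf_f : x ∈ hf K false ↔ ∃ r ∈ K.p, K.tm x ≤ r := by
  simp only [hf, mem_union, sd_f, add_zero, Bool.false_eq_true, if_false, mem_ofPred_eq]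
  exact ⟨fun h => h.elim (fun ⟨r, a, b⟩ => ⟨r, a, b.le⟩) fun ⟨r, a, b⟩ => ⟨r, a, b.le⟩,
    fun ⟨r, a, b⟩ => b.lt_or_eq.imp (fun b => ⟨r, a, b⟩) fun b => ⟨r, a, b⟩⟩

theorem hf_sd (hd : 0 < d) (h : x ∈ hf K s) : x ∈ sd K s d := by
  cases s
  · exact let ⟨r, a, b⟩ := hf_f.1 h; sd_f.2 ⟨r, a, by linarith⟩
  · exact let ⟨r, a, b⟩ := hf_t.1 h; sd_t.2 ⟨r, a, by linarith⟩

theorem sd_eq (hd : d + d' ≤ 2) (h : x ∈ sd K s d) (h' : x ∈ sd K s' d') : s = s' := by
  cases s <;> cases s' <;> try rfl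
  · obtain ⟨r, a, b⟩ := sd_f.1 h
    obtain ⟨r', a', b'⟩ := sd_t.1 h'
    linarith [K.len r a r' a']
  · obtain ⟨r, a, b⟩ := sd_t.1 h
    obtain ⟨r', a', b'⟩ := sd_f.1 h'
    linarith [K.len r' a' r a]

theorem sd_mono (hd : d ≤ d') (h : x ∈ sd K s d) : x ∈ sd K s d' := by
  cases s
  · exact let ⟨r, a, b⟩ := sd_f.1 h; sd_f.2 ⟨r, a, by linarith⟩
  · exact let ⟨r, a, b⟩ := sd_t.1 h; sd_t.2 ⟨r, a, by linarith⟩

theorem sd_fin (h : x ∈ sd K s d) : ¬K.Inf s := by
  cases s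
  · obtain ⟨r, a, -⟩ := sd_f.1 h
    simp [Nk.Inf, Option.mem_def.1 a]
  · obtain ⟨r, a, -⟩ := sd_t.1 h
    simp [Nk.Inf, Option.mem_def.1 a]

variable (K) in
theorem exists_mid : ∃ m, m ∈ Dp K.p K.q 1 := by
  have := K.len
  rcases h : K.p with _ | a <;> rcases h' : K.q with _ | r <;> simp only [Dp, h, h'] at this ⊢
  · exact ⟨0, by simp⟩
  · exact ⟨r - 1, by simp⟩
  · exact ⟨a + 1, by simp⟩
  · exact ⟨a + 1, by simpa using by linarith [this a rfl r rfl]⟩

theorem hf_of_lt {m : ℝ} (hm : m ∈ K.J) (h : x ∉ K.ψ.target) :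
    (K.tm x < m → x ∈ hf K false) ∧ (m < K.tm x → x ∈ hf K true) := by
  rw [tm_tgt] at h
  simp only [Jv, mem_ofPred_eq, not_and_or, not_forall, not_lt, exists_prop] at h
  constructor <;> intro k <;> rcases h with ⟨a, h1, h2⟩ | ⟨a, h1, h2⟩
  · exact hf_f.2 ⟨a, h1, h2⟩
  · linarith [hm.2 a h1]
  · linarith [hm.1 a h1]
  · exact hf_t.2 ⟨a, h1, h2⟩

/-- connected sets off the neck lie on one side -/
theorem side_of {U : Set X.M} (hU : IsPreconnected U) (h : Disjoint K.ψ.target U) :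
    ∃ s, U ⊆ hf K s := by
  obtain ⟨m, hm⟩ := exists_mid K
  have hm := Nd18.Dp_sub one_pos hm
  have n : ∀ x ∈ U, x ∉ K.ψ.target := fun x hx k => disjoint_left.1 h k hx
  rcases hU.subset_or_subset (isOpen_lt K.cont continuous_const : IsOpen {x | K.tm x < m})
    (isOpen_lt continuous_const K.cont : IsOpen {x | m < K.tm x})
    (disjoint_left.2 fun x (a : K.tm x < m) (b : m < K.tm x) => by linarith)
    (fun x hx => lt_or_gt_of_ne fun k : K.tm x = m => n x hx ((tm_tgt K).2 (k ▸ hm))) with k | k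
  · exact ⟨false, fun x hx => (hf_of_lt hm (n x hx)).1 (k hx)⟩
  · exact ⟨true, fun x hx => (hf_of_lt hm (n x hx)).2 (k hx)⟩

variable (K) in
theorem tgt_con : IsPreconnected K.ψ.target := by
  rw [← K.ψ.image_source_eq_target]
  refine IsPreconnected.image ?_ _ K.ψ.continuousOn
  rw [K.src]
  exact isPreconnected_univ.prod (OrdConnected.isPreconnected ⟨fun a ha r hr t ht =>
    ⟨fun c hc => (ha.1 c hc).trans_le ht.1, fun c hc => ht.2.trans_lt (hr.2 c hc)⟩⟩)

theorem exists_tm {t : ℝ} (ht : t ∈ K.J) : ∃ x ∈ K.ψ.target, K.tm x = t :=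
  have : (Classical.arbitrary _, t) ∈ K.ψ.source := K.mem_src.2 ht
  ⟨_, K.ψ.map_source this, K.tm_ψ _ this⟩

theorem col_f {a u v t : ℝ} (h : K.p = some a) : t ∈ col K false u v ↔ a + u < t ∧ t < a + v := by
  simp [col, h]

theorem col_t {a u v t : ℝ} (h : K.q = some a) : t ∈ col K true u v ↔ a - v < t ∧ t < a - u := by
  simp [col, h]

theorem fin_f (h : ¬K.Inf false) : ∃ a, K.p = some a := Option.ne_none_iff_exists'.1 h
theorem fin_t (h : ¬K.Inf true) : ∃ a, K.q = some a := Option.ne_none_iff_exists'.1 h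

theorem col_deep {u v t : ℝ} (h : ¬K.Inf s) (hu : d ≤ u) (hv : v + d ≤ 2) (ht : t ∈ col K s u v) :
    t ∈ K.deep d := by
  rw [mem_deep]
  cases s
  · obtain ⟨a, h⟩ := fin_f h
    rw [col_f h] at ht
    exact ⟨fun a' k => by cases h.symm.trans k; linarith,
      fun r k => by linarith [K.len a h r k]⟩
  · obtain ⟨a, h⟩ := fin_t h
    rw [col_t h] at ht
    exact ⟨fun r k => by linarith [K.len r k a h], fun a' k => by cases h.symm.trans k; linarith⟩

theorem deep_J {t : ℝ} (hd : 0 ≤ d) (h : t ∈ K.deep d) : t ∈ K.J :=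
  have := (mem_deep K).1 h
  ⟨fun a k => by linarith [this.1 a k], fun a k => by linarith [this.2 a k]⟩

theorem col_sd {u : ℝ} (h : ¬K.Inf s) (hx : K.tm x ∈ col K s u d) : x ∈ sd K s d := by
  cases s
  · exact let ⟨a, h⟩ := fin_f h; sd_f.2 ⟨a, h, ((col_f h).1 hx).2⟩
  · exact let ⟨a, h⟩ := fin_t h; sd_t.2 ⟨a, h, ((col_t h).1 hx).1⟩

theorem col_ne {u v : ℝ} (h : u < v) : (col K s u v).Nonempty := by
  cases s <;> simp [col, h]

end nk

section tree
variable {N : Type} [Fintype N] {e : N → En3 κ lam ν} (P : Pz X nc e) {i j : N} {s : Bool}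
  {σ σ' : N → Bool}

open Classical in
/-- the side of the neck `i` on which the neck `j` lies -/
def os (i j : N) : Bool := ∀ K ∈ P.nk i, ∀ K' ∈ P.nk j, K'.ψ.target ⊆ hf K true

open Classical in
/-- the vertex at the side `s` of the neck `i` -/
def vt (i : N) (s : Bool) (j : N) : Bool := if j = i then s else os P j i

/-- finite necks that are not switched off -/
def Fn (i : N) : Prop := ¬P.Off i ∧ ∀ K ∈ P.nk i, ∀ s, ¬K.Inf s

variable {P}

theorem vt_self : vt P i s i = s := by simp [vt]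
theorem vt_ne (h : j ≠ i) : vt P i s j = os P j i := by simp [vt, h]

theorem nk_of_act (h : ¬P.Off i) : ∃ K, P.nk i = some K := by
  by_contra! k
  exact h fun K a => (k K a).elim

theorem on_spec (hP : P.OK) (h : i ≠ j) {K} (hK : K ∈ P.nk i) {K'} (hK' : K' ∈ P.nk j) :
    K'.ψ.target ⊆ hf K (os P i j) := by
  obtain ⟨s, hs⟩ := side_of (tgt_con K') (hP.dj h K hK K' hK')
  by_cases k : ∀ K ∈ P.nk i, ∀ K' ∈ P.nk j, K'.ψ.target ⊆ hf K true
  · rw [show os P i j = true by unfold os; exact @decide_eq_true _ (_) k]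
    exact k K hK K' hK'
  · rw [show os P i j = false by unfold os; exact @decide_eq_false _ (_) k]
    cases s
    · exact hs
    · exact (k fun K₁ a K₂ a' => by cases hK.symm.trans a; cases hK'.symm.trans a'; exact hs).elim

theorem tgt_vx (hP : P.OK) {K} (hK : K ∈ P.nk i) {d : ℝ} (hd : 0 < d) {x} (hx : x ∈ K.ψ.target)
    (h : x ∈ sd K s d) : x ∈ Vx P (vt P i s) d := fun j _ K' hK' => by
  by_cases k : j = i
  · subst k
    cases hK.symm.trans hK'
    rwa [vt_self]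
  · rw [vt_ne k]
    exact hf_sd hd (on_spec hP k hK' hK hx)

theorem col_J {e : En3 κ lam ν} {b : Bg X.I X.M κ lam ν nc} {K : Nk e b} (h : ¬K.Inf s) :
    col K s 0 1 ⊆ K.J := fun _ ht => deep_J le_rfl (col_deep h le_rfl (by norm_num) ht)

theorem adj_vt (hP : P.OK) (h : ¬P.Off i) (hs : ¬P.Inf i s) : Adj P (vt P i s) i :=
  ⟨h, fun K hK x hx => by
    rw [vt_self] at hx
    have f : ¬K.Inf s := fun k => hs ⟨K, hK, k⟩
    rw [mem_img K (col_J f)] at hx
    exact tgt_vx hP hK one_pos ((tm_tgt K).2 (col_J f hx)) (col_sd f hx)⟩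

theorem Adj.fin (h : Adj P σ i) : ¬P.Inf i (σ i) := fun ⟨K, hK, k⟩ =>
  let ⟨t, ht⟩ := col_ne (K := K) (s := σ i) one_pos
  sd_fin (h.2 K hK ⟨(Classical.arbitrary _, t), ⟨trivial, ht⟩, rfl⟩ i h.1 K hK) k

theorem Adj.os (hP : P.OK) (h : Adj P σ j) (hi : ¬P.Off i) (n : i ≠ j) : σ i = os P i j := by
  obtain ⟨K, hK⟩ := nk_of_act hi
  obtain ⟨K', hK'⟩ := nk_of_act h.1
  have f : ¬K'.Inf (σ j) := fun k => h.fin ⟨K', hK', k⟩
  obtain ⟨t, ht⟩ := col_ne (K := K') (s := σ j) one_pos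
  obtain ⟨x, hx, rfl⟩ := exists_tm (col_J f ht)
  exact sd_eq (by norm_num) (h.2 K' hK' ((mem_img K' (col_J f)).2 ht) i hi K hK)
    (hf_sd one_pos (on_spec hP n hK hK' hx))

/-- a vertex is not on the far side of two necks -/
theorem on_or (hT : TopStmt κ lam ν) (hP : P.OK) (hi : Fn P i) (hj : ¬P.Off j) (n : i ≠ j) {x}
    (hx : x ∈ Vx P σ (1 / 2)) : σ i = os P i j ∨ σ j = os P j i := by
  by_contra! k
  obtain ⟨K, hK⟩ := nk_of_act hi.1
  obtain ⟨K', hK'⟩ := nk_of_act hj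
  obtain ⟨a, ha⟩ := fin_f (hi.2 K hK false)
  obtain ⟨r, hr⟩ := fin_t (hi.2 K hK true)
  have l := K.len a ha r hr
  have m : ∀ t, a < t → t < r → t ∈ K.J := fun t h1 h2 =>
    ⟨fun _ k => by cases ha.symm.trans k; exact h1, fun _ k => by cases hr.symm.trans k; exact h2⟩
  have := hP.con
  have c := hT.con X nc _ _ K univ isOpen_univ isPreconnected_univ (subset_univ _) (a + 1)
    (m _ (by linarith) (by linarith))
  have x1 := hx i hi.1 K hK
  have o := on_spec hP n hK hK'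
  have key : ∀ U : Set X.M, IsPreconnected U → x ∈ U → (U ∩ K.ψ.target).Nonempty →
      Disjoint K'.ψ.target U → False := fun U h1 h2 ⟨z, h3, h4⟩ h5 => by
    obtain ⟨s, hs⟩ := side_of h1 h5
    have e1 := sd_eq (by norm_num) (hf_sd one_pos (hs h3)) (hf_sd one_pos (on_spec hP n.symm hK' hK h4))
    exact k.2 ((sd_eq (by norm_num) (hx j hj K' hK') (hf_sd one_pos (hs h2))).trans e1)
  rcases h : σ i with _ | _ <;> rw [h] at x1 k
  · have o' : os P i j = true := by simpa using k.1.symm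
    obtain ⟨_, k1, k2⟩ := sd_f.1 x1
    cases ha.symm.trans k1
    obtain ⟨z, h1, h2⟩ := exists_tm (m (a + 1 / 2) (by linarith) (by linarith))
    refine key _ c.1 ⟨trivial, show K.tm x < a + 1 by linarith⟩
      ⟨z, ⟨trivial, show K.tm z < a + 1 by linarith⟩, h1⟩ (disjoint_left.2 fun y hy h3 => ?_)
    obtain ⟨_, k3, k4⟩ := hf_t.1 (o' ▸ o hy)
    cases hr.symm.trans k3
    linarith [show K.tm y < a + 1 from h3.2]
  · have o' : os P i j = false := by simpa using k.1.symm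
    obtain ⟨_, k1, k2⟩ := sd_t.1 x1
    cases hr.symm.trans k1
    obtain ⟨z, h1, h2⟩ := exists_tm (m (r - 1 / 2) (by linarith) (by linarith))
    refine key _ c.2 ⟨trivial, show a + 1 < K.tm x by linarith⟩
      ⟨z, ⟨trivial, show a + 1 < K.tm z by linarith⟩, h1⟩ (disjoint_left.2 fun y hy h3 => ?_)
    obtain ⟨_, k3, k4⟩ := hf_f.1 (o' ▸ o hy)
    cases ha.symm.trans k3
    linarith [show a + 1 < K.tm y from h3.2]

/-- nonempty vertices are determined by the finite necks -/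
theorem vx_eq {d d' r : ℝ} {x x'} (hx : x ∈ Vx P σ d) (hx' : x' ∈ Vx P σ' d')
    (h : ∀ i, Fn P i → σ i = σ' i) : Vx P σ r = Vx P σ' r := by
  have : ∀ i, ¬P.Off i → σ i = σ' i := fun i hi => by
    by_contra n
    obtain ⟨K, hK⟩ := nk_of_act hi
    refine n (h i ⟨hi, fun K' hK' s => ?_⟩)
    by_cases k : s = σ i
    · exact k ▸ sd_fin (hx i hi K' hK')
    · have : s = σ' i := by revert n k; cases s <;> cases σ i <;> cases σ' i <;> simp
      exact this ▸ sd_fin (hx' i hi K' hK')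
  ext y
  exact forall₂_congr fun i hi => by rw [this i hi]

theorem vt_ne' (hP : P.OK) (h : ¬P.Off i) (hs : ¬P.Inf i s) : (Vx P (vt P i s) (1 / 2)).Nonempty := by
  obtain ⟨K, hK⟩ := nk_of_act h
  have f : ¬K.Inf s := fun k => hs ⟨K, hK, k⟩
  obtain ⟨t, ht⟩ := col_ne (K := K) (s := s) (show (0 : ℝ) < 1 / 2 by norm_num)
  obtain ⟨x, hx, rfl⟩ := exists_tm (deep_J le_rfl (col_deep f le_rfl (by norm_num) ht))
  exact ⟨x, tgt_vx hP hK (by norm_num) hx (col_sd f ht)⟩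

end tree

end Crest.Agent.X212.End23
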